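import Vale.Agent.P092.H962.NT.PX1
import Vale.Agent.P092.SX.FinT
import Vale.Agent.P092.H124.PglD
import Vale.Agent.P092.H725.SN.GK3
import Vale.Agent.P092.H725.SN.GK4

/-!
P092 (helper962), Team N, products with mixed fields, all `t`: **[P-EX-T]** for the source groups
`∏ PGL_(N j + 1)(k j)`, in the letters of `SX/FinT`.
-/

set_option linter.all false

open scoped InnerProductSpace ENNReal LinearAlgebra.Projectivization
open Filter Topology ContinuousLinearMap MeasureTheory TopologicalSpace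

namespace Vale.Agent.P092.H962.NT

open Vale.Agent.P092.SR Vale.Agent.P092.H160 Vale.Agent.P092.H103 Vale.Agent.P092.H962
open Vale.Agent.P092.H368.SN (Cz cz_pi cz_pgl ad0_of)

set_option maxHeartbeats 3200000 in
/-- **[P-EX-T]**, products of groups `PGL_n(k)`, any local fields, all `t`. -/
theorem exPGHalfT : SX.ExPGHalfT := by
  intro J _ _ k _ _ _ _ μ _ N hk hN
  obtain ⟨l, i1, i2, hl, hc⟩ := H124.Pgl.exists_coord k N hk
  refine ⟨l, i1, i2, hl, ?_⟩
  intro _ _ Γ _ _ _ _ ν _ hν hΓ hicc Λ _ _ hΛ I _ α hα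
  obtain ⟨q, hq⟩ := hc Γ hΓ.covol
  choose c h0 h1 using fun j => NormedField.exists_norm_lt_one (k j)
  have hA := SX.admP_PG k N hk hN
  exact ⟨_, exPX1_of (μ := μ) (l := l) hν hicc hΛ hα hk hl
    hA.adm (fun i j hij g h => Pi.mulSingle_commute hij _ _)
    (w := fun j => Units.mk0 (c j) (norm_pos_iff.1 (h0 j))) (q := q) h1
    (fun j => cz_pi j (cz_pgl (ad0_of (H387.Ad.adm_pgl (hk j) (hN j))) _))
    (fun hT hh i j q' hq' => by
      obtain ⟨n, n', ζ, h'⟩ := exists_tri' hα hα hα hΛ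
      exact H725.SN.legBFK_HH₁ (μ := μ i) hν hα hα hα hicc hΛ (hA.adm i) (h1 i) hq'
        (H725.SN.leviGapK_PG k N hk hN i _) hT (msF_N hν hT hicc h' hh))
    hq.ph hq.fin hq.inj hq.nis hq.nis'⟩

end Vale.Agent.P092.H962.NT
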