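import Vale.Agent.P092.H859.CND
import Vale.Agent.P092.H21.DichoF
import Vale.Agent.P092.H962.C.Amp

/-!
P092 (helper962), Team N, all `t`: the type dichotomy of helper859 (`H859/CND`, wall of type one of
`SL_n(k)`) for families of vectors (`H21/DichoF`): the symmetry under inversion holds for one finite
family, the invariance of the vector state for another one.
-/

set_option linter.all false

open scoped InnerProductSpace Pointwise
open Filter Topology ContinuousLinearMap TopologicalSpace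

namespace Vale.Agent.P092.H859.CN.NT

open Vale.Agent.P092.H859.CL
open Vale.Agent.P092.H553 (ind ind_nonneg ind_le_one abs_ind_le ind_pos ind_neg)
open Vale.Agent.P092.H76.Pur
open Vale.Agent.P092.H76.Dicho (net net_apply net_split net_one net_ucp net_inner limF_of Moore.mono)
open Vale.Agent.P092.RC (PicF Moore TRNF Cm)
open Vale.Agent.P092.H21 (InvF NoC SymF noC_of half' zero_of' sum_inner_self)

section sym

variable {Γ D K Y κ : Type} [Group Γ] [Group D] [NormedAddCommGroup K] [InnerProductSpace ℂ K]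
  [CompleteSpace K] [Fintype κ] {mp : (Γ → ℝ) → (K →L[ℂ] K)}
  {R : D → (K →L[ℂ] K)} {Bd : Set K}
  {ms : D → Set Γ → ℝ} {A : Subgroup D} {Br : ℝ → Set Γ} {G1 G2 H1 H2 : Γ → ℝ} {bp : Γ → Y}
  {l : Filter D} {Ω : κ → K}

/-- one vector -/
theorem sym_one (h : SysF mp R Bd ms A Br G1 G2)
    (hfin : ∀ r, (FF G1 G2 r).Finite) (he : Esc (st mp) R Bd A l)
    (hp : Pos (st mp) R G2 H2 l) {C : ℝ}
    (hC : Gaps G1 G2 H1 H2 C) (h1 : R 1 = 1) (ω : K) :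
    Tendsto (fun w => ‖st mp {g | G2 g ≤ G1 g} (R w ω)‖ ^ 2 +
      ‖st mp {g | G2 g⁻¹ ≤ G1 g⁻¹} (R w ω)‖ ^ 2) l (𝓝 (‖ω‖ ^ 2)) := by
  obtain ⟨S, hS⟩ : ∃ S : Set Γ, S = {g | G2 g ≤ G1 g} := ⟨_, rfl⟩
  obtain ⟨S', hS'⟩ : ∃ S' : Set Γ, S' = {g | G2 g⁻¹ ≤ G1 g⁻¹} := ⟨_, rfl⟩
  obtain ⟨N, hN⟩ : ∃ N : Set Γ, N = {g | |G1 g - G2 g| ≤ 4 * C} ∪
    {g | G1 g < G2 g ∧ H1 g < H2 g + 2 * C} := ⟨_, rfl⟩
  rw [← hS, ← hS']
  have hC0 := hC.nn
  have hneg := negl_pos h.sys he hp (N := N) (fun r => by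
    obtain ⟨F1, f1, hF1⟩ := band_G hC hfin (c := 4 * C) (by positivity) r
    obtain ⟨F2, f2, hF2⟩ := cones_cover hC hfin (c := 2 * C) (by positivity) r
    refine ⟨F1 ∪ F2, f1.union f2, ?_⟩
    rw [hN]
    refine Set.union_subset (hF1.trans ?_) (hF2.trans ?_)
    · exact Set.union_subset_union_left _ Set.subset_union_left
    · exact Set.union_subset_union_left _ Set.subset_union_right) ω
  have hprj := h.fn.prj
  have k3 : ∀ w, ‖st mp S (R w ω)‖ ^ 2 + ‖st mp Sᶜ (R w ω)‖ ^ 2 = ‖ω‖ ^ 2 := by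
    intro w
    rw [hprj.norm_sq_add, h.sys.rep.norm_eq, h1]
    rfl
  have k4 : ∀ w, |‖st mp S (R w ω)‖ ^ 2 + ‖st mp S' (R w ω)‖ ^ 2 - ‖ω‖ ^ 2| ≤
      4 * ‖ω‖ * ‖st mp N (R w ω)‖ := by
    intro w
    have e1 : ‖st mp S (R w ω)‖ ^ 2 + ‖st mp S' (R w ω)‖ ^ 2 - ‖ω‖ ^ 2 =
        (‖st mp S' (R w ω)‖ - ‖st mp Sᶜ (R w ω)‖) * (‖st mp S' (R w ω)‖ + ‖st mp Sᶜ (R w ω)‖) := by
      linear_combination k3 w
    have e2 : ‖st mp S' (R w ω) - st mp Sᶜ (R w ω)‖ ≤ 2 * ‖st mp N (R w ω)‖ := by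
      refine hprj.sub_le (fun g hg => ?_) _
      rw [hN, Set.mem_union, not_or] at hg
      obtain ⟨hg1, hg2⟩ := hg
      have hg1' : ¬ |G1 g - G2 g| ≤ 4 * C := hg1
      have hg2' : ¬ (G1 g < G2 g ∧ H1 g < H2 g + 2 * C) := hg2
      rw [hS', hS]
      simp only [Set.mem_setOf_eq, Set.mem_compl_iff, not_le]
      have c1 := abs_le.1 (hC.inv1 g)
      have c2 := abs_le.1 (hC.inv2 g)
      have d1 := hC.le1 g
      have d2 := hC.le2 g
      constructor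
      · intro h3
        by_contra h4
        push Not at h4
        exact hg1' (abs_le.2 ⟨by linarith, by linarith⟩)
      · intro h3
        by_contra h4
        push Not at h4
        exact hg2' ⟨h3, by linarith⟩
    have e3 : ∀ T : Set Γ, ‖st mp T (R w ω)‖ ≤ ‖ω‖ := fun T =>
      (hprj.norm_le T (R w ω)).trans (h.sys.rep.norm_le w ω)
    have e4 := (abs_norm_sub_norm_le (st mp S' (R w ω)) (st mp Sᶜ (R w ω))).trans e2
    rw [e1, abs_mul]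
    have e5 : |‖st mp S' (R w ω)‖ + ‖st mp Sᶜ (R w ω)‖| ≤ 2 * ‖ω‖ := by
      rw [abs_of_nonneg (by positivity)]
      linarith [e3 S', e3 Sᶜ]
    calc _ ≤ (2 * ‖st mp N (R w ω)‖) * (2 * ‖ω‖) := mul_le_mul e4 e5 (abs_nonneg _) (by positivity)
      _ = _ := by ring
  have k5 : Tendsto (fun w => ‖st mp S (R w ω)‖ ^ 2 + ‖st mp S' (R w ω)‖ ^ 2 - ‖ω‖ ^ 2) l
      (𝓝 0) := by
    have h4 := hneg.const_mul (4 * ‖ω‖)
    rw [mul_zero] at h4
    exact squeeze_zero_norm (fun w => k4 w) h4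
  have k6 := k5.add_const (‖ω‖ ^ 2)
  rw [zero_add] at k6
  exact k6.congr fun w => by ring

/-- The symmetry under inversion, families: the two masses add up to `1`. -/
theorem sym_limF [TopologicalSpace Y] [CompactSpace Y] (h : SysF mp R Bd ms A Br G1 G2)
    (hfin : ∀ r, (FF G1 G2 r).Finite) (he : Esc (st mp) R Bd A l)
    (hp : Pos (st mp) R G2 H2 l) (hsy : SymF mp R Ω) {C : ℝ}
    (hC : Gaps G1 G2 H1 H2 C) (h1 : R 1 = 1) (hΩ : ∑ i, ‖Ω i‖ ^ 2 = 1) :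
    Tendsto (fun w => ∑ j, ⟪Ω j, net h.fn R G1 G2 bp w 1 (Ω j)⟫_ℂ +
      ∑ j, ⟪Ω j, net h.fn R G1 G2 bp w⁻¹ 1 (Ω j)⟫_ℂ) l (𝓝 1) := by
  have k1 : ∀ w, ∑ j, ⟪Ω j, net h.fn R G1 G2 bp w 1 (Ω j)⟫_ℂ +
      ∑ j, ⟪Ω j, net h.fn R G1 G2 bp w⁻¹ 1 (Ω j)⟫_ℂ =
      ((∑ j, (‖st mp {g | G2 g ≤ G1 g} (R w (Ω j))‖ ^ 2 +
        ‖st mp {g | G2 g⁻¹ ≤ G1 g⁻¹} (R w (Ω j))‖ ^ 2) : ℝ) : ℂ) := by
    intro w
    have k2 := hsy w {g | G2 g⁻¹ ≤ G1 g⁻¹}
    have e : {g : Γ | g⁻¹ ∈ {g : Γ | G2 g⁻¹ ≤ G1 g⁻¹}} = {g | G2 g ≤ G1 g} := by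
      ext g
      simp only [Set.mem_setOf_eq, inv_inv]
    rw [e] at k2
    simp only [net_inner h.fn h.sys.rep]
    rw [← Complex.ofReal_sum, ← Complex.ofReal_sum, ← Complex.ofReal_add, k2,
      ← Finset.sum_add_distrib]
  have k2 := tendsto_finsetSum (Finset.univ : Finset κ)
    (fun j _ => sym_one h hfin he hp hC h1 (Ω j))
  rw [hΩ] at k2
  have k7 := (Complex.continuous_ofReal.tendsto _).comp k2
  rw [Complex.ofReal_one] at k7
  refine k7.congr fun w => ?_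
  rw [k1 w]
  rfl

end sym

section dicho

variable {Γ D K Y κ : Type} [Group Γ] [Group D] [NormedAddCommGroup K] [InnerProductSpace ℂ K]
  [CompleteSpace K] [Fintype κ] {mp : (Γ → ℝ) → (K →L[ℂ] K)} {Bd : Set K}
  {ms : D → Set Γ → ℝ} {A : Subgroup D} {Br : ℝ → Set Γ} {G1 G2 H1 H2 : Γ → ℝ} {bp : Γ → Y}
  {l : Filter D} {W : Set (K →L[ℂ] K)} {Q Q' : Set D} {Ω : κ → K}
  [TopologicalSpace Y] [CompactSpace Y] [MulAction Γ Y]
  {π : D →* (K →L[ℂ] K)} {lam : Γ →* (K →L[ℂ] K)}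

/-- **The type dichotomy**, from the asymptotic statements; families. -/
theorem dicho_asyF (h : SysF mp π Bd ms A Br G1 G2) (hG : GeoF Br G1 G2 bp)
    (he : Esc (st mp) π Bd A l) (he' : Esc (st mp) π Bd A (l.map (·⁻¹)))
    (hp : Pos (st mp) π G2 H2 l) (hp' : Pos (st mp) π G2 H2 (l.map (·⁻¹)))
    (hsy : SymF mp π Ω) {C : ℝ} (hC : Gaps G1 G2 H1 H2 C)
    (hΩ : ∑ i, ‖Ω i‖ ^ 2 = 1) (hNC : NoC (fun (γ : Γ) (y : Y) => γ • y) π lam W)
    (hQ : Subgroup.closure (Q ∪ Q') = ⊤) (herg : Erg π lam W Q) (herg' : Erg π lam W Q')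
    (hcov : ∀ l' : Filter D, Esc (st mp) π Bd A l' → ∀ (s : Γ) (f f' : C(Y, ℂ)),
      (∀ y, f' (s • y) = f y) → ∀ ξ : K, Tendsto (fun w =>
        (lam s * PC mp π w (H859.CL.cfc G1 G2 bp f) * lam s⁻¹ -
          PC mp π w (H859.CL.cfc G1 G2 bp f')) ξ) l' (𝓝 0))
    (hcm : ∀ a ∈ W, ∀ w (f : C(Y, ℂ)), a * PC mp π w (H859.CL.cfc G1 G2 bp f) =
      PC mp π w (H859.CL.cfc G1 G2 bp f) * a)
    (hpar : ∀ n ∈ Q, ∀ (f : C(Y, ℂ)) (ξ η : K), Tendsto (fun w =>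
      ⟪η, (PC mp π w (H859.CL.cfc G1 G2 bp f) * π n -
        π n * PC mp π w (H859.CL.cfc G1 G2 bp f)) ξ⟫_ℂ) l (𝓝 0))
    (hpar' : ∀ n ∈ Q', ∀ (f : C(Y, ℂ)) (ξ η : K), Tendsto (fun w =>
      ⟪η, (PC mp π w (H859.CL.cfc G1 G2 bp f) * π n -
        π n * PC mp π w (H859.CL.cfc G1 G2 bp f)) ξ⟫_ℂ) (l.map (·⁻¹)) (𝓝 0)) :
    (Full (st mp) π G1 G2 l ∧ Full (st mp) π H1 H2 (l.map (·⁻¹))) ∨
      (Full (st mp) π H1 H2 l ∧ Full (st mp) π G1 G2 (l.map (·⁻¹))) := by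
  have h1 : π 1 = 1 := map_one π
  have hi : Tendsto (fun w : D => w⁻¹) l (l.map (·⁻¹)) := tendsto_map
  have hsym := sym_limF (bp := bp) h hG.fin he hp hsy hC h1 hΩ
  have hL : ∀ U : Ultrafilter D, (U : Filter D) ≤ l → ∀ E, WLim (net h.fn π G1 G2 bp) U E →
      LimF (fun (γ : Γ) (y : Y) => γ • y) π lam W Q E := fun U hU E hE =>
    limF_of (P := net h.fn π G1 G2 bp) (l := l) (fun s f f' hff ξ η => by
      have h3 := (tendsto_const_nhds (x := η)).inner (𝕜 := ℂ) (hcov l he s f f' hff ξ)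
      rw [inner_zero_right] at h3
      exact h3) (fun a ha i f => hcm a ha i f) (fun n hn f ξ η => hpar n hn f ξ η) hU hE
  have hL' : ∀ U : Ultrafilter D, (U : Filter D) ≤ l → ∀ E,
      WLim (fun w => net h.fn π G1 G2 bp w⁻¹) U E →
      LimF (fun (γ : Γ) (y : Y) => γ • y) π lam W Q' E := fun U hU E hE =>
    limF_of (P := fun w => net h.fn π G1 G2 bp w⁻¹) (l := l) (fun s f f' hff ξ η => by
      have h3 := (tendsto_const_nhds (x := η)).inner (𝕜 := ℂ)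
        ((hcov _ he' s f f' hff ξ).comp hi)
      rw [inner_zero_right] at h3
      exact h3) (fun a ha i f => hcm a ha i⁻¹ f)
      (fun n hn f ξ η => (hpar' n hn f ξ η).comp hi) hU hE
  have hP : ∀ w, UCP (net h.fn π G1 G2 bp w) := fun w => net_ucp h.fn h.sys.rep w
  have hsep : ∀ f g : C(Y, ℂ), Disjoint (tsupport f) (tsupport g) → ∀ ξ η,
      Tendsto (fun p : D × D => ⟪net h.fn π G1 G2 bp p.1 f ξ,
        net h.fn π G1 G2 bp p.2⁻¹ g η⟫_ℂ) (l ×ˢ l) (𝓝 0) := fun f g hfg ξ η =>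
    (sep_cplx h hG he he' f g hfg ξ η).comp (tendsto_fst.prodMk (hi.comp tendsto_snd))
  have fin1 : ∀ l' : Filter D, (∀ ξ, Tendsto (fun w => net h.fn π G1 G2 bp w 1 ξ) l' (𝓝 ξ)) →
      Full (st mp) π G1 G2 l' := fun l' hl ξ => by
    rw [h1]
    exact (hl ξ).congr fun w => by rw [net_one]
  have hsumΩ : ∀ {P : D → (C(Y, ℂ) →ₗ[ℂ] (K →L[ℂ] K))},
      (∀ ξ, Tendsto (fun i => P i 1 ξ) l (𝓝 ξ)) →
      Tendsto (fun i => ∑ j, ⟪Ω j, P i 1 (Ω j)⟫_ℂ) l (𝓝 1) := fun {P} hh => by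
    have h3 := tendsto_finsetSum (Finset.univ : Finset κ) fun j _ =>
      (tendsto_const_nhds (x := Ω j)).inner (𝕜 := ℂ) (hh (Ω j))
    rwa [sum_inner_self hΩ] at h3
  rcases half' hNC hΩ hQ herg herg' (P := net h.fn π G1 G2 bp)
    (P' := fun w => net h.fn π G1 G2 bp w⁻¹) hP (fun w => hP w⁻¹) hL hL' hsep hsym with hh | hh
  · refine Or.inl ⟨fin1 l hh, full_of_zero (bp := bp) h hG.fin he' hp' hC fun ξ => ?_⟩
    rw [tendsto_map'_iff]
    refine zero_of' (P := fun w => net h.fn π G1 G2 bp w⁻¹) (fun w => hP w⁻¹) hΩ herg' hL' ?_ ξ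
    have h4 := hsym.sub (hsumΩ hh)
    rw [sub_self] at h4
    exact h4.congr fun w => by ring
  · refine Or.inr ⟨full_of_zero (bp := bp) h hG.fin he hp hC fun ξ => ?_, fin1 _ fun ξ => ?_⟩
    · refine zero_of' (P := net h.fn π G1 G2 bp) hP hΩ herg hL ?_ ξ
      have h4 := hsym.sub (hsumΩ hh)
      rw [sub_self] at h4
      exact h4.congr fun w => by ring
    · rw [tendsto_map'_iff]
      exact hh ξ

variable [TopologicalSpace D]

/-- **[N-DICHO], families.** Along `l` the type is the first one and along the inverse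
it is the last one, or the other way round. -/
theorem dichoF (h : SysF mp π Bd ms A Br G1 G2) (hG : GeoF Br G1 G2 bp) (hL : Leg mp π lam W)
    (hS : Slow mp π Bd) (he : Esc (st mp) π Bd A l) (he' : Esc (st mp) π Bd A (l.map (·⁻¹)))
    (hLU : LU1 mp π G1 G2 l) (hLU' : LU1 mp π G1 G2 (l.map (·⁻¹)))
    (hp : Pos (st mp) π G2 H2 l) (hp' : Pos (st mp) π G2 H2 (l.map (·⁻¹)))
    (hsy : SymF mp π Ω) {C : ℝ} (hC : Gaps G1 G2 H1 H2 C)
    (hΩ : ∑ i, ‖Ω i‖ ^ 2 = 1) (hNC : NoC (fun (γ : Γ) (y : Y) => γ • y) π lam W)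
    (hQ : ∀ n ∈ Q, Tendsto (fun w => w * n * w⁻¹) l (𝓝 1) ∨ ∀ᶠ w in l, Commute w n)
    (hQ' : ∀ n ∈ Q', Tendsto (fun w => w⁻¹ * n * w) l (𝓝 1) ∨ ∀ᶠ w in l, Commute w n)
    (hcl : Subgroup.closure (Q ∪ Q') = ⊤) (herg : Erg π lam W Q) (herg' : Erg π lam W Q') :
    (Full (st mp) π G1 G2 l ∧ Full (st mp) π H1 H2 (l.map (·⁻¹))) ∨
      (Full (st mp) π H1 H2 l ∧ Full (st mp) π G1 G2 (l.map (·⁻¹))) := by
  refine dicho_asyF h hG he he' hp hp' hsy hC hΩ hNC hcl herg herg'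
    (fun l' hl' s f f' hff ξ => asy_cov h hG hL hl' s hff ξ)
    (fun a ha w f => PC_W hL h.fn h.sys.rep ha (CL.cfc_norm fun y => f.norm_coe_le_norm y) w)
    (fun n hn f ξ η => asy_par h hG hS hLU (hQ n hn) f ξ η)
    (fun n hn f ξ η => asy_par h hG hS hLU' ?_ f ξ η)
  rcases hQ' n hn with h1 | h1
  · left
    rw [tendsto_map'_iff]
    refine h1.congr fun w => ?_
    simp only [Function.comp_apply, inv_inv]
  · right
    rw [eventually_map]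
    filter_upwards [h1] with w hw
    exact hw.inv_left

end dicho

/-! ### Pictures with a family of vectors -/

section pic

variable {Γ D K κ : Type} [Group Γ] [Group D] [TopologicalSpace D] [NormedAddCommGroup K]
  [InnerProductSpace ℂ K] [CompleteSpace K] [Fintype κ] {π : D →* (K →L[ℂ] K)}
  {lam : Γ →* (K →L[ℂ] K)} {W : Set (K →L[ℂ] K)} {Ω : κ → K}

theorem erg_of_picF (hP : PicF π lam W Ω) {Q : Set D} (hQ : Moore Q) : Erg π lam W Q :=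
  fun T hW hlam hπ => hP.erg Q hQ T (fun w hw => hW w hw) hlam hπ

theorem noC_of_picF {X : Type} [TopologicalSpace X] [CompactSpace X] {act : Γ → X → X}
    (hNI : NIS act) (hP : PicF π lam W Ω) : NoC act π lam W := by
  obtain ⟨n, Ω', h1, h2⟩ := hP.inv
  exact noC_of hNI h1 fun T hW hπ γ => h2 T (fun w hw => hW w hw) hπ γ

theorem leg_of_picF (hP : PicF π lam W Ω) {mp : (Γ → ℝ) → (K →L[ℂ] K)}
    (hcov : ∀ γ (F : Γ → ℝ), (∀ g, |F g| ≤ 1) → lam γ * mp F * lam γ⁻¹ = mp (fun g => F (γ⁻¹ * g)))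
    (hWm : ∀ w ∈ W, ∀ F : Γ → ℝ, (∀ g, |F g| ≤ 1) → w * mp F = mp F * w) :
    Leg mp π lam W where
  one := map_one π
  lmul := map_mul lam
  lone := map_one lam
  comm := hP.comm
  cov := hcov
  WP := hP.WP
  Wm := hWm

end pic

end Vale.Agent.P092.H859.CN.NT
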