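import Vale.Agent.P092.H805.RowN
import Vale.Agent.P092.H21.SrcT
import Vale.Agent.P092.H458.T.HalfE
import Vale.Agent.P092.H962.NT.SrcEF

/-!
P092 (helper962), Team N, all `t`: the row inputs for the picture `L²(E/Γ; ℋ)` of a triple with an
honest family, `E` any second countable locally compact group: `CN.SysF` with a general regular
set, the source data `SrcEF`, the vectors of the family.
-/

set_option linter.all false

open scoped InnerProductSpace ENNReal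
open Filter Topology ContinuousLinearMap MeasureTheory TopologicalSpace

namespace Vale.Agent.P092.H962.NT

open Vale.Agent.P092.SR
open Vale.Agent.P092.H160 (Ell2)
open Vale.Agent.P092.H21
open Vale.Agent.P092.H859.CL (BB st Slow Leg pw tendsto_pw)
open Vale.Agent.P092.H790 (CData)
open Vale.Agent.P092.H43 (Loc2 BfL)
open Vale.Agent.P092.RC (PicF)
open Vale.Agent.P092.H368.SN.NT (SrcEF)

section row

variable {D Γ ι ι' ℋ : Type} [Group D] [Group Γ] [Countable Γ] [Fintype ι] [Fintype ι']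
  [NormedAddCommGroup ℋ] [InnerProductSpace ℂ ℋ] [CompleteSpace ℋ]
  {V R₁ R₂ : Γ →* (ℋ →L[ℂ] ℋ)} {ξ : ι → ℋ} {ξ' : ι' → ℋ} (d : CData D Γ)
  (hT : Tri V R₁ R₂ ξ)
  (hΓ : ∀ g : Γ, g ≠ 1 → Set.Infinite {y : Γ | ∃ h, y = h * g * h⁻¹}) (hT' : Tri R₁ V R₂ ξ')
  (hh : Hon R₁ R₂ ξ)

include hΓ hT' in
/-- The masses are monotone. -/
theorem msT_mono (u : D) {P P' : Set Γ} (h : P ⊆ P') : msT d hT u P ≤ msT d hT u P' :=
  H805.RowN.msR_mono d (arepT hT hΓ hT') u h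

include hΓ hT' hh in
/-- **`SysF` on the picture, all `t`**, letters `CN` (general regular sets). -/
theorem sysN_T {A : Subgroup D} {Br : ℝ → Set Γ} {G1 G2 : Γ → ℝ}
    (hgap : ∀ s u : Γ, ∃ C, ∀ x, |G1 (s * x * u) - G1 x| ≤ C ∧ |G2 (s * x * u) - G2 x| ≤ C)
    (hBB : ∀ r, ∃ r', BB G1 G2 r' ⊆ Br r)
    (nrm : ∀ ε : ℝ, 0 < ε → ∃ r, ∀ u ∈ A, msT d hT u (Br r) ≤ ε) :
    H859.CN.SysF (mT d hT) (fun g => H34.Ind.pi d (V := V) hT.adjV g) (BdT d hT) (msT d hT) A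
      Br G1 G2 := by
  refine H805.RowN.cn_of_cl (H21.sysF_T d hT hΓ hT' hh hgap fun ε hε => ?_) nrm
  obtain ⟨r, hr⟩ := nrm ε hε
  obtain ⟨r', hr'⟩ := hBB r
  exact ⟨r', fun u hu => (msT_mono d hT hΓ hT' u hr').trans (hr u hu)⟩

include hΓ hT' in
/-- **`om`**: the vectors of the family are bounded in both legs. -/
theorem om_TF (c : ℂ) (i : ι) : ∃ c' : ℂ, ∃ η ∈ BfT d hT,
    (Lp.const 2 d.μ (c • ξ i) : Lp ℋ 2 d.μ) = c' • η :=
  ⟨c, Lp.const 2 d.μ (ξ i), bf_T d hT (arepT hT hΓ hT') (H805.Row.bf_sub d) i, rfl⟩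

end row

section src

variable {E : Type} [Group E] [TopologicalSpace E] [IsTopologicalGroup E] [LocallyCompactSpace E]
  [SecondCountableTopology E] [T2Space E] [MeasurableSpace E] [BorelSpace E]
  {Γ : Subgroup E} [DiscreteTopology Γ] [MeasurableSpace (E ⧸ Γ)] [BorelSpace (E ⧸ Γ)]
  {ν : Measure (E ⧸ Γ)} [IsProbabilityMeasure ν] [Countable Γ]
  (hν : ∀ g : E, ν.map (fun x => g • x) = ν)
  {ℋ ι ι' : Type} [Fintype ι] [Fintype ι'] [NormedAddCommGroup ℋ]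
  [InnerProductSpace ℂ ℋ] [CompleteSpace ℋ] {V R₁ R₂ : Γ →* (ℋ →L[ℂ] ℋ)} {ξ : ι → ℋ}
  {ξ' : ι' → ℋ} (hT : Tri V R₁ R₂ ξ)
  (hΓ : ∀ g : Γ, g ≠ 1 → Set.Infinite {y : Γ | ∃ h, y = h * g * h⁻¹}) (hT' : Tri R₁ V R₂ ξ')
  (hh : Hon R₁ R₂ ξ)

include hΓ hT' hh

/-- **The source data of one leg**, all `t`, any second countable locally compact group. -/
theorem srcEF_T {b : E} (hb : Tendsto (fun n : ℕ => b ^ n) atTop (cocompact E)) {c : ℂ}
    (hP : PicF (H34.Ind.pi (H85.cdat ν hν) (V := V) hT.adjV) (H34.Ind.lam (H85.cdat ν hν) R₁)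
      (WT (H85.cdat ν hν) R₂) (fun i => (Lp.const 2 (H85.cdat ν hν).μ (c • ξ i) : Lp ℋ 2 _))) :
    SrcEF b (H34.Ind.pi (H85.cdat ν hν) (V := V) hT.adjV) (H34.Ind.lam (H85.cdat ν hν) R₁)
      (WT (H85.cdat ν hν) R₂) (fun i => (Lp.const 2 (H85.cdat ν hν).μ (c • ξ i) : Lp ℋ 2 _))
      (mT (H85.cdat ν hν) hT) (BdT (H85.cdat ν hν) hT) (BfT (H85.cdat ν hν) hT) where
  pic := hP
  mcov := (leg_T (H85.cdat ν hν) hT hh hΓ hT').cov
  mW := (leg_T (H85.cdat ν hν) hT hh hΓ hT').Wm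
  slow := slow_T (H85.cdat ν hν) hT hΓ hT' hh (H43.ccont_cdat ν hν)
  loc := loc2_T (H85.cdat ν hν) hT hΓ hT' hh
  esc := fun g ξ hξ => tendsto_pw.1 ((esc_pow_T hν hT hΓ hT' hh hb).esc g ξ hξ)
  esc' := fun g ξ hξ => tendsto_pw.1 ((esc_pow_inv_T hν hT hΓ hT' hh hb).esc g ξ hξ)
  sym := symF_T (H85.cdat ν hν) hT hh hΓ hT' _

end src

end Vale.Agent.P092.H962.NT
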