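import Vale.Agent.P092.H859.TgN
import Vale.Agent.P092.H458.T.Dis
import Vale.Agent.P092.H962.NT.DichoF

/-!
P092 (helper962), Team N, all `t`: the zero-one law and the agreement spaces of a covariant family
in a picture with a finite family of vectors (`PicF`; `H411/NAgr` for `RC.Pic`), and (NWS) for the
vectors of the family.
-/

set_option linter.all false

open scoped InnerProductSpace ENNReal LinearAlgebra.Projectivization
open Filter Topology ContinuousLinearMap MeasureTheory TopologicalSpace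

namespace Vale.Agent.P092.H962.NT

open Vale.Agent.P092.RC (PicF Moore Cm GG PG YY y0 ct)
open Vale.Agent.P092.H76.Pur (NIS)
open Vale.Agent.P092.H21 (NoC)
open Vale.Agent.P092.H411 (agr_dich Nrm nrm_cov')
open Vale.Agent.P092.H458.DisT (const_false noC_of_pic)
open Vale.Agent.P092.SN (CY nm NW Att act PH UD NWA NWS EFam Adm bw)
open Vale.Agent.P092.H859.CL (Full pw)
open Vale.Agent.P092.H859.TgN (Tg ZZ g1 g2)

section pic

variable {G Γ K κ : Type} [Group G] [TopologicalSpace G] [Group Γ] [NormedAddCommGroup K]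
  [InnerProductSpace ℂ K] [CompleteSpace K] [Fintype κ]
  {π : G →* (K →L[ℂ] K)} {lam : Γ →* (K →L[ℂ] K)} {W : Set (K →L[ℂ] K)} {Ω : κ → K}

section fam

variable {Y : Type} {I : Type*} [TopologicalSpace Y] [MulAction G I]
  {E : I → (C(Y, ℂ) →⋆ₐ[ℂ] (K →L[ℂ] K))}

/-- **[N-AGR]**, dichotomy, families of vectors. -/
theorem agr_subF (hp : PicF π lam W Ω) (cm : ∀ X f, Cm W (E X f))
    (hlam : ∀ γ, ∃ σ : C(Y, ℂ) → C(Y, ℂ), ∀ X f, lam γ * E X f = E X (σ f) * lam γ)
    (pcov : ∀ g X f, π g * E X f = E (g • X) f * π g) {X X' : I}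
    (hS : Moore {g : G | g • X = X ∧ g • X' = X'}) :
    (∀ f, E X f = E X' f) ∨ ∀ ζ, (∀ f, E X f ζ = E X' f ζ) → ζ = 0 := by
  have hl1 : ∀ γ, lam γ * lam γ⁻¹ = 1 := fun γ => by rw [← map_mul, mul_inv_cancel, map_one]
  refine agr_dich (β₁ := fun f => E X f) (β₂ := fun f => E X' f)
    (𝒮 := W ∪ Set.range lam ∪ π '' {g | g • X = X ∧ g • X' = X'}) ?_ ?_
  · intro T hT
    exact hp.erg _ hS T (fun w hw => hT w (Or.inl (Or.inl hw)))
      (fun γ => hT _ (Or.inl (Or.inr ⟨γ, rfl⟩))) fun g hg => hT _ (Or.inr ⟨g, hg, rfl⟩)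
  · rintro S ((hw | ⟨γ, rfl⟩) | ⟨g, ⟨hg1, hg2⟩, rfl⟩)
    · exact ⟨Nrm.of_comm (fun F => cm X F S hw) fun F => cm X' F S hw,
        Nrm.of_comm (fun F => cm X F _ (hp.Wadj S hw)) fun F => cm X' F _ (hp.Wadj S hw)⟩
    · have e : ∀ γ : Γ, Nrm (fun F => E X F) (fun F => E X' F) (lam γ) := by
        intro γ
        obtain ⟨σ, hσ⟩ := hlam γ⁻¹
        refine nrm_cov' (hl1 γ) ?_ (fun F => hσ X F) fun F => hσ X' F
        have := hl1 γ⁻¹
        rwa [inv_inv] at this
      refine ⟨e γ, ?_⟩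
      rw [hp.adjL]
      exact e γ⁻¹
    · have e : ∀ g : G, g • X = X → g • X' = X' →
          Nrm (fun F => E X F) (fun F => E X' F) (π g) := by
        intro g h4 h5
        refine Nrm.of_comm (fun F => ?_) fun F => ?_
        · have := pcov g X F
          rw [h4] at this
          exact this.symm
        · have := pcov g X' F
          rw [h5] at this
          exact this.symm
      refine ⟨e g hg1 hg2, ?_⟩
      rw [hp.adjP]
      refine e g⁻¹ ?_ ?_
      · rw [inv_smul_eq_iff, hg1]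
      · rw [inv_smul_eq_iff, hg2]

variable [CompactSpace Y]

/-- Two members of a covariant family are different, if their stabilisers generate the group and
if there is no invariant state on the target space; families of vectors. -/
theorem ne_of_genF (cm : ∀ X f, Cm W (E X f)) {act : Γ → Y → Y}
    (hNC : NoC act π lam W)
    (cov : ∀ γ X, ∀ f f' : C(Y, ℂ), (∀ x, f' (act γ x) = f x) → lam γ * E X f * lam γ⁻¹ = E X f')
    (pcov : ∀ g X f, π g * E X f = E (g • X) f * π g) {X X' : I}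
    (hgen : Subgroup.closure ({g : G | g • X = X} ∪ {g : G | g • X' = X'}) = ⊤)
    (he : ∀ f, E X f = E X' f) : False := by
  have key : ∀ g : G, ∀ f, E X f * π g = π g * E X f := by
    intro g
    have hg : g ∈ Subgroup.closure ({g : G | g • X = X} ∪ {g : G | g • X' = X'}) := by
      rw [hgen]
      exact Subgroup.mem_top g
    induction hg using Subgroup.closure_induction with
    | mem x hx =>
      intro f
      rcases hx with hx | hx
      · have := pcov x X f
        rw [show x • X = X from hx] at this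
        exact this.symm
      · have := pcov x X' f
        rw [show x • X' = X' from hx, ← he f] at this
        exact this.symm
    | one =>
      intro f
      rw [map_one, mul_one, one_mul]
    | mul x y _ _ h1 h2 =>
      intro f
      rw [map_mul, ← mul_assoc, h1 f, mul_assoc, h2 f, mul_assoc]
    | inv x _ h1 =>
      intro f
      have e1 : π x * π x⁻¹ = 1 := by rw [← map_mul, mul_inv_cancel, map_one]
      have e2 : π x⁻¹ * π x = 1 := by rw [← map_mul, inv_mul_cancel, map_one]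
      calc E X f * π x⁻¹ = (π x⁻¹ * π x) * (E X f * π x⁻¹) := by rw [e2, one_mul]
        _ = π x⁻¹ * (π x * E X f) * π x⁻¹ := by simp only [mul_assoc]
        _ = π x⁻¹ * (E X f * π x) * π x⁻¹ := by rw [h1 f]
        _ = π x⁻¹ * E X f * (π x * π x⁻¹) := by simp only [mul_assoc]
        _ = π x⁻¹ * E X f := by rw [e1, mul_one]
  exact const_false hNC (E X) (fun γ f f' h => cov γ X f f' h)
    (fun f w hw => cm X f w hw) fun f g => key g f

/-- **[N-AGR]**: two different members of a covariant family agree nowhere; families of vectors. -/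
theorem agr_grF (hp : PicF π lam W Ω) (cm : ∀ X f, Cm W (E X f)) {act : Γ → Y → Y}
    (hNI : NIS act) (hact : ∀ γ, ∀ f : C(Y, ℂ), ∃ f' : C(Y, ℂ), ∀ x, f' (act γ x) = f x)
    (cov : ∀ γ X, ∀ f f' : C(Y, ℂ), (∀ x, f' (act γ x) = f x) → lam γ * E X f * lam γ⁻¹ = E X f')
    (pcov : ∀ g X f, π g * E X f = E (g • X) f * π g) {X X' : I}
    (hS : Moore {g : G | g • X = X ∧ g • X' = X'})
    (hgen : Subgroup.closure ({g : G | g • X = X} ∪ {g : G | g • X' = X'}) = ⊤) :
    ∀ ζ, (∀ f, E X f ζ = E X' f ζ) → ζ = 0 := by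
  have hl1 : ∀ γ, lam γ⁻¹ * lam γ = 1 := fun γ => by rw [← map_mul, inv_mul_cancel, map_one]
  refine (agr_subF hp cm ?_ pcov hS).resolve_left fun he =>
    ne_of_genF cm (noC_of_pic hp hNI) cov pcov hgen he
  intro γ
  choose σ hσ using hact γ
  refine ⟨σ, fun X f => ?_⟩
  rw [← cov γ X f (σ f) (hσ f), mul_assoc, hl1, mul_one]

end fam

end pic

section efam

variable {k : Type} [NontriviallyNormedField k] [ProperSpace k] {N : ℕ} {E Γ K κ : Type} [Group E]
  [Group Γ] [NormedAddCommGroup K] [InnerProductSpace ℂ K] [CompleteSpace K] [Fintype κ]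
  {w : kˣ} {ι : GG k N →* E} {a : E →* PG k (N + 1)} {π : E →* (K →L[ℂ] K)}
  {lam : Γ →* (K →L[ℂ] K)} {W : Set (K →L[ℂ] K)} {Ω : κ → K} {m : Set Γ → (K →L[ℂ] K)}
  {q : Γ → GG k N} {Z : ℝ → Set Γ} {F : YY k N → (CY k N →⋆ₐ[ℂ] (K →L[ℂ] K))}

/-- Agreement, from no invariant states on the target points and Howe-Moore on the source;
families of vectors. -/
theorem agr_famF [TopologicalSpace E] [MulAction E (YY k N)] [MulAction Γ (YY k N)]
    [ContinuousConstSMul Γ (YY k N)] (hP : PicF π lam W Ω)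
    {b : E} {NA : ℝ → ℝ → Set (YY k N) → Set Γ} {z0 : YY k N}
    (h : H859.CN.Fam b π lam W m NA z0 F) (hNI : NIS fun (γ : Γ) (y : YY k N) => γ • y)
    (hM : ∀ x y : YY k N, Moore {e : E | e • x = x ∧ e • y = y})
    (hgen : ∀ x y : YY k N, x ≠ y →
      Subgroup.closure ({e : E | e • x = x} ∪ {e : E | e • y = y}) = ⊤) :
    ∀ x y, x ≠ y → ∀ ξ, (∀ f, F x f ξ = F y f ξ) → ξ = 0 := by
  intro x y hxy
  have hinv' : ∀ g : E, π g⁻¹ * π g = 1 := fun g => by rw [← map_mul, inv_mul_cancel, map_one]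
  refine agr_grF (E := F) hP h.cm (act := fun (γ : Γ) (y : YY k N) => γ • y) hNI
    (fun γ f => ?_) (fun γ X f f' hf => h.cov γ X f f' hf) (fun g X f => ?_) (hM x y) (hgen x y hxy)
  · refine ⟨⟨fun y => f (γ⁻¹ • y), f.continuous.comp (continuous_const_smul _)⟩, fun y => ?_⟩
    change f (γ⁻¹ • γ • y) = f y
    rw [inv_smul_smul]
  · rw [← h.pcov g X f, mul_assoc, hinv', mul_one]

/-- (NWS) is homogeneous. -/
theorem nws_smul {η : K} (h : NWS w ι π η m q Z) (c : ℂ) : NWS w ι π (c • η) m q Z := by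
  intro g ε hε
  obtain ⟨R, hR⟩ := h g (ε / (‖c‖ + 1)) (by positivity)
  refine ⟨R, fun t => ?_⟩
  have h1 := hR t
  rw [le_div_iff₀ (by positivity)] at h1
  rw [map_smul, map_smul, norm_smul]
  nlinarith [norm_nonneg (m {γ | ¬ (γ ∈ Z R ∧ NW R (q γ))} (π (ι (g * bw w ^ t * g⁻¹))⁻¹ η)),
    norm_nonneg c]

/-- (NWS) for the vectors of the family. -/
theorem nws_ofF [TopologicalSpace E] {Br : ℝ → Set Γ} {Bd Bf : Set K} {ms : E → Set Γ → ℝ}
    {ρ : Γ → ℝ} {b : E} (hb : ι (bw w) = b) (hN : 2 ≤ N) (hT : Tg q ρ)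
    (h : H859.CN.Sys m (fun g => π g) Bd ms (Subgroup.zpowers b) Br (g1 q) (g2 q ρ))
    (hf : Full m (fun g => π g) (g1 q) (g2 q ρ) (pw b⁻¹))
    (hfin : ∀ ξ, ∀ ε : ℝ, 0 < ε → ∃ F : Finset Γ, ‖m ((F : Set Γ))ᶜ ξ‖ ≤ ε)
    (hloc : ∀ v, H107.LocAt m (π v) Bf) (hmap : ∀ v, ∀ ζ ∈ Bf, π v ζ ∈ Bf)
    (hΩ : ∀ i, ∃ c : ℂ, ∃ η ∈ Bf, Ω i = c • η) (i : κ) :
    NWS w ι π (Ω i) m q (ZZ ρ) := by
  obtain ⟨c, η, hη, e⟩ := hΩ i
  rw [e]
  exact nws_smul (H859.TgN.nws_of hb hN hT h hf hfin hloc hmap hη) c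

end efam

end Vale.Agent.P092.H962.NT
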