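import Vale.Agent.P092.H962.NT.PairT
import Vale.Agent.P092.H337.NGj

/-!
P092 (helper962), Team N, products, all `t`, **[P-EX-T]**: the first family of legs of the picture
of a triple with an honest family over a source group with finitely many factors, one field (`SNT.LegNF`) and
two fields (`SX.LegNF`), from the output of the wall analysis (`OutP`).
-/

set_option linter.all false

open scoped InnerProductSpace ENNReal LinearAlgebra.Projectivization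
open Filter Topology ContinuousLinearMap MeasureTheory TopologicalSpace

namespace Vale.Agent.P092.H962.NT

open Vale.Agent.P092.SR
open Vale.Agent.P092.H21 (mT BdT BfT msT WT Hon nc nc_ne fin_T)
open Vale.Agent.P092.H85 (cdat)
open Vale.Agent.P092.H859.CL (st pw)
open Vale.Agent.P092.RC (GG PG YY y0 ct PicF)
open Vale.Agent.P092.SN (CY PH UD Adm bw un nm NW NWA NWS EFam)
open Vale.Agent.P092.SNT (LegNF ORBGF)
open Vale.Agent.P092.SNP (ZP AdmP)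
open Vale.Agent.P092.H100.Gr (Gr)
open Vale.Agent.P092.H76.Pur (NIS)
open Vale.Agent.P092.H368.SN (Cz pow_cocompact)
open Vale.Agent.P092.H35 (sp)
open Vale.Agent.P092.H337.NG (rho G2 RG)
open Vale.Agent.P092.H305.PX (Cmp legXF_out)

section out

variable {E : Type} [Group E] [TopologicalSpace E] [IsTopologicalGroup E] [LocallyCompactSpace E]
  [SecondCountableTopology E] [T2Space E] [MeasurableSpace E] [BorelSpace E]
  {Γ : Subgroup E} [DiscreteTopology Γ] [Countable Γ] [MeasurableSpace (E ⧸ Γ)]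
  [BorelSpace (E ⧸ Γ)] {ν : Measure (E ⧸ Γ)} [IsProbabilityMeasure ν]
  (hν : ∀ g : E, ν.map (fun x => g • x) = ν)
  {κ ℋ : Type} [Fintype κ] [NormedAddCommGroup ℋ] [InnerProductSpace ℂ ℋ] [CompleteSpace ℋ]
  {V R₁ R₂ : Γ →* (ℋ →L[ℂ] ℋ)} {ξ : κ → ℋ} (hT : Tri V R₁ R₂ ξ)
  {J : Type} [Fintype J] [DecidableEq J]
  {k l : J → Type} [∀ j, NontriviallyNormedField (k j)] [∀ j, ProperSpace (k j)]
  [∀ j, NontriviallyNormedField (l j)] [∀ j, ProperSpace (l j)] {N : J → ℕ}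

/-- The output of the wall analysis: the source factor `i` is matched with the target coordinate
`τ i`; regularity, tightness of the other coordinates, positions. -/
structure OutP (ι : ∀ j, GG (k j) (N j) →* E) (w : ∀ j, (k j)ˣ) (q : ∀ j, Γ → GG (l j) (N j))
    (Br : ℝ → Set Γ) (τ : J → J) : Prop where
  rg : RG q Br
  nrm : ∀ j, ∀ ε : ℝ, 0 < ε → ∃ r : ℝ, ∀ u ∈ Subgroup.zpowers (ι j (bw (w j))),
    msT (cdat ν hν) hT u (Br r) ≤ ε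
  bij : Function.Bijective τ
  dim : ∀ i, N (τ i) = N i
  tight : ∀ i (c : κ) (ε : ℝ), 0 < ε → ∃ r : ℝ, ∀ v ∈ Subgroup.zpowers (ι i (bw (w i))),
    ‖st (mT (cdat ν hν) hT) {γ | ∃ j', j' ≠ τ i ∧ r < nm (q j' γ)}
      (H34.Ind.pi (cdat ν hν) (V := V) hT.adjV v (OmN hν ξ c))‖ ≤ ε
  pos : ∀ i (c : κ) (ε : ℝ), 0 < ε → ∃ r : ℝ, ∀ᶠ t : ℕ in atTop,
    ‖st (mT (cdat ν hν) hT) {γ | r < G2 (q (τ i) γ) ∧ r < G2 (ct (q (τ i) γ))}
      (H34.Ind.pi (cdat ν hν) (V := V) hT.adjV (ι i (bw (w i)) ^ t) (OmN hν ξ c))‖ ≤ ε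
  pos' : ∀ i (c : κ) (ε : ℝ), 0 < ε → ∃ r : ℝ, ∀ᶠ t : ℕ in atTop,
    ‖st (mT (cdat ν hν) hT) {γ | r < G2 (q (τ i) γ) ∧ r < G2 (ct (q (τ i) γ))}
      (H34.Ind.pi (cdat ν hν) (V := V) hT.adjV ((ι i (bw (w i)))⁻¹ ^ t) (OmN hν ξ c))‖ ≤ ε

end out

section ex

variable {E : Type} [Group E] [TopologicalSpace E] [IsTopologicalGroup E] [LocallyCompactSpace E]
  [SecondCountableTopology E] [T2Space E] [MeasurableSpace E] [BorelSpace E]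
  {Γ : Subgroup E} [DiscreteTopology Γ] [Countable Γ] [MeasurableSpace (E ⧸ Γ)]
  [BorelSpace (E ⧸ Γ)] {ν : Measure (E ⧸ Γ)} [IsProbabilityMeasure ν]
  (hν : ∀ g : E, ν.map (fun x => g • x) = ν)
  {ℋ κ κ' : Type} [Fintype κ] [Fintype κ'] [NormedAddCommGroup ℋ]
  [InnerProductSpace ℂ ℋ] [CompleteSpace ℋ] {V R₁ R₂ : Γ →* (ℋ →L[ℂ] ℋ)} {ξ : κ → ℋ}
  {ξ' : κ' → ℋ} (hT : Tri V R₁ R₂ ξ)
  (hΓ : ∀ g : Γ, g ≠ 1 → Set.Infinite {y : Γ | ∃ h, y = h * g * h⁻¹}) (hT' : Tri R₁ V R₂ ξ')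
  (hh : Hon R₁ R₂ ξ)
  (hP : PicF (H34.Ind.pi (cdat ν hν) (V := V) hT.adjV) (H34.Ind.lam (cdat ν hν) R₁)
    (WT (cdat ν hν) R₂) (OmN hν ξ))
  {J : Type} [Fintype J] [DecidableEq J] {N : J → ℕ}

include hΓ hT' hh hP

/-- **The first family of legs, all `t`, one field.** -/
theorem exPF_of {k : Type} [NontriviallyNormedField k] [ProperSpace k] [MeasurableSpace k]
    {μ : Measure k} {ι : ∀ j, GG k (N j) →* E} {a a' : ∀ j, E →* PG k (N j + 1)}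
    {w : J → kˣ} {q : ∀ j, Γ → GG k (N j)} (hA : AdmP ι a a')
    (hw : ∀ j, ‖(w j : k)‖ < 1) (hz : ∀ j, Cz (w j) (ι j) (a j) (a' j))
    (hL : ∀ i (q' : Γ → GG k (N i)), PH q' →
      H725.SN.LegBF μ (w i) (ι i) (H34.Ind.pi (cdat ν hν) (V := V) hT.adjV)
        (H34.Ind.lam (cdat ν hν) R₁) (WT (cdat ν hν) R₂) (OmN hν ξ)
        (st (mT (cdat ν hν) hT)) q')
    (hq : ∀ j, PH (q j))
    (fin : ∀ C : ℝ, {γ : Γ | ∀ j, nm (q j γ) ≤ C}.Finite)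
    (inj : ∀ γ, (∀ j, sp k (N j + 1) (q j γ) = 1) → γ = 1)
    (nis : ∀ j d, 1 ≤ d → d ≤ N j → NIS fun (γ : Γ) (x : Gr k (Fin (N j + 1)) d) => q j γ • x)
    (nis' : ∀ j d, 1 ≤ d → d ≤ N j →
      NIS fun (γ : Γ) (x : Gr k (Fin (N j + 1)) d) => ct (q j γ) • x)
    {Br : ℝ → Set Γ} {τ : J → J}
    (h : OutP (k := fun _ => k) (l := fun _ => k) hν hT ι w q Br τ) :
    ∃ (q' : ∀ j, Γ → GG k (N j))
      (E₁ F₁ : ∀ j, YY k (N j) → (CY k (N j) →⋆ₐ[ℂ]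
        (Lp ℋ 2 (cdat ν hν).μ →L[ℂ] Lp ℋ 2 (cdat ν hν).μ))),
      (∀ j, LegNF μ (w j) (ι j) (a j) (a' j)
        (H34.Ind.pi (cdat ν hν) (V := V) hT.adjV)
        (H34.Ind.lam (cdat ν hν) R₁) (WT (cdat ν hν) R₂)
        (OmN hν ξ) (st (mT (cdat ν hν) hT)) (q' j) (ZP q' j) (E₁ j) (F₁ j)) ∧
      (∀ γ, (∀ j, sp k (N j + 1) (q' j γ) = 1) → γ = 1) ∧
      ∀ C : ℝ, {γ : Γ | ∀ j, nm (q' j γ) ≤ C}.Finite := by
  have hN2 : ∀ j, 2 ≤ N j := fun j => (hA.adm j).hN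
  have hN1 : ∀ j, 1 ≤ N j := fun j => le_trans one_le_two (hN2 j)
  exact legNF_out (k := fun _ => k) (μ := fun _ => μ) (w := w) (ι := ι) (a := a) (a' := a')
    (m := st (mT (cdat ν hν) hT)) fin inj ⟨τ, h.bij, fun i =>
      leg_pairF (μ := μ) hν hT hΓ hT' hh hP (hA.adm i) (hw i) (hz i) hN1 hq fin (τ i) (h.dim i)
        (h.rg.bb hN1 (τ i)) (h.rg.bb_ct hN1 (τ i)) (h.nrm i) (hL i) (nis (τ i)) (nis' (τ i))
        (h.tight i) (h.pos i) (h.pos' i)⟩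

/-- **The first family of legs, all `t`, two fields.** -/
theorem exPX_of {k l : J → Type} [∀ j, NontriviallyNormedField (k j)] [∀ j, ProperSpace (k j)]
    [∀ j, MeasurableSpace (k j)] {μ : ∀ j, Measure (k j)}
    [∀ j, NontriviallyNormedField (l j)] [∀ j, ProperSpace (l j)]
    {ι : ∀ j, GG (k j) (N j) →* E} {a a' : ∀ j, E →* PG (k j) (N j + 1)}
    {w : ∀ j, (k j)ˣ} {q : ∀ j, Γ → GG (l j) (N j)} (hA : ∀ j, Adm (ι j) (a j) (a' j))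
    (hw : ∀ j, ‖(w j : k j)‖ < 1) (hz : ∀ j, Cz (w j) (ι j) (a j) (a' j))
    (hL : ∀ i j (q' : Γ → GG (l j) (N i)), PH q' →
      H725.SN.LegBF (μ i) (w i) (ι i) (H34.Ind.pi (cdat ν hν) (V := V) hT.adjV)
        (H34.Ind.lam (cdat ν hν) R₁) (WT (cdat ν hν) R₂) (OmN hν ξ)
        (st (mT (cdat ν hν) hT)) q')
    (hq : ∀ j, PH (q j))
    (fin : ∀ C : ℝ, {γ : Γ | ∀ j, nm (q j γ) ≤ C}.Finite)
    (inj : ∀ γ, (∀ j, sp (l j) (N j + 1) (q j γ) = 1) → γ = 1)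
    (nis : ∀ j d, 1 ≤ d → d ≤ N j →
      NIS fun (γ : Γ) (x : Gr (l j) (Fin (N j + 1)) d) => q j γ • x)
    (nis' : ∀ j d, 1 ≤ d → d ≤ N j →
      NIS fun (γ : Γ) (x : Gr (l j) (Fin (N j + 1)) d) => ct (q j γ) • x)
    {Br : ℝ → Set Γ} {τ : J → J} (h : OutP hν hT ι w q Br τ) :
    ∃ (q' : ∀ j, Γ → GG (l (τ j)) (N j))
      (E₁ F₁ : ∀ j, YY (k j) (N j) → (CY (l (τ j)) (N j) →⋆ₐ[ℂ]
        (Lp ℋ 2 (cdat ν hν).μ →L[ℂ] Lp ℋ 2 (cdat ν hν).μ))),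
      (∀ j, SX.LegNF (μ j) (w j) (ι j) (a j) (a' j)
        (H34.Ind.pi (cdat ν hν) (V := V) hT.adjV)
        (H34.Ind.lam (cdat ν hν) R₁) (WT (cdat ν hν) R₂)
        (OmN hν ξ) (st (mT (cdat ν hν) hT)) (q' j) (ZP (k := fun i => l (τ i)) q' j)
        (E₁ j) (F₁ j)) ∧
      (∀ γ, (∀ j, sp (l (τ j)) (N j + 1) (q' j γ) = 1) → γ = 1) ∧
      ∀ C : ℝ, {γ : Γ | ∀ j, nm (q' j γ) ≤ C}.Finite := by
  have hN2 : ∀ j, 2 ≤ N j := fun j => (hA j).hN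
  have hN1 : ∀ j, 1 ≤ N j := fun j => le_trans one_le_two (hN2 j)
  exact legXF_out (μ := μ) (w := w) (ι := ι) (a := a) (a' := a')
    (m := st (mT (cdat ν hν) hT)) fin inj h.bij fun i =>
      leg_pairX (μ := μ i) hν hT hΓ hT' hh hP (hA i) (hw i) (hz i) hN1 hq fin (τ i) (h.dim i)
        (h.rg.bb hN1 (τ i)) (h.rg.bb_ct hN1 (τ i)) (h.nrm i) (hL i (τ i)) (nis (τ i))
        (nis' (τ i)) (h.tight i) (h.pos i) (h.pos' i)

end ex

end Vale.Agent.P092.H962.NT
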