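import Vale.Agent.P092.H962.NT.HalfT
import Vale.Agent.P092.SNPT.All

/-!
P092 (helper962), Team N, all `t`: the final statement `SNPT.FinalAllK`: every ICC lattice in a
finite product of groups `SL_n(k)`, `PSL_n(k)`, `n ≥ 3`, one local field `k`, all amplifications.
-/

namespace Vale.Agent.P092.H962.NT

/-- **THE FINAL STATEMENT**, products, one local field, all amplifications. -/
theorem finalAllK : SNPT.FinalAllK :=
  SNPT.finalAllK_of_half fun _ _ _ _ _ _ _ hk => exPSHalfT hk

end Vale.Agent.P092.H962.NT
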