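import Vale.Agent.P092.H962.NT.OutHH
import Vale.Agent.P092.H305.PX.Ex
import Vale.Agent.P092.SNPT.Flip

/-!
P092 (helper962), Team N, all `t`: **[P-EX-T]**, the first family of legs over `∏ PSL_n(k)` for every
local field `k`.
-/

set_option linter.all false

open scoped InnerProductSpace ENNReal LinearAlgebra.Projectivization
open Filter Topology ContinuousLinearMap MeasureTheory TopologicalSpace

namespace Vale.Agent.P092.H962.NT

open Vale.Agent.P092.SR Vale.Agent.P092.H160 Vale.Agent.P092.H103 Vale.Agent.P092.H962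
open Vale.Agent.P092.H21 (mT WT Hon)
open Vale.Agent.P092.H85 (cdat)
open Vale.Agent.P092.H859.CL (st)
open Vale.Agent.P092.RC (GG PG YY y0 ct PicF adjV3)
open Vale.Agent.P092.SN (CY PH UD Adm bw un nm)
open Vale.Agent.P092.H368.SN (Cz cz_pi cz_psl ad0_of)
open Vale.Agent.P092.H305.PX (co comm_iP ph_co fin_co inj_co nis_co nis_co')

set_option maxHeartbeats 3200000 in
/-- **[P-EX-T]**, products of groups `PSL_n(k)`, one local field, all `t`. -/
theorem exPSHalfT {k : Type} [NontriviallyNormedField k] [ProperSpace k] [MeasurableSpace k]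
    [BorelSpace k] {μ : Measure k} [μ.IsAddHaarMeasure] (hk : H933.LocK k) :
    SNPT.ExPSHalfT k μ := by
  intro J _ _ N hN _ _ Γ _ _ _ _ ν _ hν hΓ hicc Λ _ _ hΛ I _ α hα
  rcases isEmpty_or_nonempty J with hJ | hJ
  · exact ⟨fun j => isEmptyElim j, Fin 0, inferInstance, fun _ => 0, fun _ => 0, co Γ,
      fun j => isEmptyElim j, fun j => isEmptyElim j, fun j => isEmptyElim j, inj_co Γ, fin_co Γ⟩
  · obtain ⟨c, h0, h1⟩ := NormedField.exists_norm_lt_one k
    obtain ⟨m, ξ, hT, hh⟩ := Vale.Agent.P092.H458.Hon.hon hα hα hΛ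
    obtain ⟨n, n', ζ, h'⟩ := exists_tri' hα hα hα hΛ
    have hA := SNP.admP_PS (fun _ : J => k) N (fun _ => hk) hN
    haveI : NoncompactSpace (SNP.EP (fun _ : J => k) N) :=
      H859.ExB.noncpt (hA.adm hJ.some) (w := Units.mk0 c (norm_pos_iff.1 h0)) h1
    have hz : ∀ j, Cz (Units.mk0 c (norm_pos_iff.1 h0)) (SNP.iP (fun _ : J => k) N j)
        (SNP.aP (fun _ : J => k) N j) (SNP.aP' (fun _ : J => k) N j) :=
      fun j => cz_pi j (cz_psl _ le_rfl (ad0_of (H387.Ad.adm_psl hk (hN j) _ le_rfl)) _)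
    obtain ⟨Br, τ, hO⟩ := exists_outP (k := fun _ => k) (l := fun _ => k) hν hicc hΛ hα hT hh
      (fun _ => hk) (fun _ => hk) hA.adm (fun i j hij g h => comm_iP (fun _ : J => k) N hij g h)
      (w := fun _ => Units.mk0 c (norm_pos_iff.1 h0)) (fun _ => h1) hz
      (fun j => ph_co Γ j) (fin_co Γ)
    have hM := msF_N hν hT hicc h' hh
    obtain ⟨q', E₁, F₁, h⟩ := exPF_of (μ := μ) hν hT hicc h' hh (picF_HH hν hicc hΛ hα hT) hA
      (fun _ => h1) hz
      (fun i q' hq' => H725.SN.legBF_HH₁ (μ := μ) hν hα hα hα hicc hΛ (hA.adm i) h1 hq'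
        (H725.SN.leviGap_PS (fun _ => hk) hN _ i _) hT hM)
      (fun j => ph_co Γ j) (fin_co Γ) (inj_co Γ) (fun j d h1 h2 => nis_co Γ hΓ.covol j h1 h2)
      (fun j d h1 h2 => nis_co' Γ hΓ.covol j h1 h2) hO
    exact ⟨_, Fin m, inferInstance, _, _, q', E₁, F₁, h⟩

end Vale.Agent.P092.H962.NT
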