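import Vale.Agent.P092.H859.ExN
import Vale.Agent.P092.SNT.Amp
import Vale.Agent.P092.H962.NT.SrcEF
import Vale.Agent.P092.H962.NT.AgrF

/-!
P092 (helper962), Team N, all `t`: `SNT.LegNF` from the row inputs, for any picture `PicF` with a
finite family of vectors and any admissible source group: abstract version of `H859/ExN`.
-/

set_option linter.all false

open scoped InnerProductSpace ENNReal LinearAlgebra.Projectivization
open Filter Topology ContinuousLinearMap MeasureTheory TopologicalSpace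

namespace Vale.Agent.P092.H962.NT

open Vale.Agent.P092.H337.NG (Siz bp)
open Vale.Agent.P092.H859.CL (FF Full Slow Esc Leg st Prj pw tendsto_pw pw_mem)
open Vale.Agent.P092.H859.TgN
open Vale.Agent.P092.H859.SrcG
open Vale.Agent.P092.H859.ExN (actQ actQ_smul ccsQ nis_pt nis_hyp)
open Vale.Agent.P092.RC (Cm Moore GG PG YY y0 ct PicF)
open Vale.Agent.P092.SN (CY CG nm NW Att act PH UD NWA NWS EFam Adm bw un)
open Vale.Agent.P092.SD (UC MsF)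
open Vale.Agent.P092.SNT (LegNF ORBGF)
open Vale.Agent.P092.H790.CTA (ORBG SIZEG)
open Vale.Agent.P092.H100.Gr (Gr)
open Vale.Agent.P092.H76.Pur (NIS)
open Vale.Agent.P092.H368.SN (ZA z0 Cz GeoE geoE_of_adm pow_cocompact ad0_of Ad0)
open Vale.Agent.P092.H368.SN.NT (SrcEF two_famEF dicho_picEF)
open Vale.Agent.P092.H43 (Loc2)

/-- The six fields `ms`, `uc`, `orb`, `orb'`, `size`, `size'` of `LegNF`. -/
structure LegBF {k : Type} [NontriviallyNormedField k] {N : ℕ} {E Γ K κ : Type}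
    [Group E] [TopologicalSpace E] [Group Γ] [NormedAddCommGroup K] [InnerProductSpace ℂ K]
    [CompleteSpace K] [Fintype κ] [MeasurableSpace k] (μ : Measure k) (w : kˣ) (ι : GG k N →* E)
    (π : E →* (K →L[ℂ] K)) (lam : Γ →* (K →L[ℂ] K)) (W : Set (K →L[ℂ] K)) (Ω : κ → K)
    (m : Set Γ → (K →L[ℂ] K)) (q : Γ → GG k N) : Prop where
  ms : MsF lam W Ω m
  uc : ∀ i, UC π W (Ω i) m
  orb : ∀ {j : Fin (N + 1)} (hj : (0 : Fin (N + 1)) ≠ j), ∃ ρ : ℝ, 0 < ρ ∧ ρ < 1 ∧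
    ORBGF μ (ι (bw w)) (fun s => ι (un hj s)) ρ π lam W Ω
  orb' : ∀ {j : Fin (N + 1)} (hj : (0 : Fin (N + 1)) ≠ j), ∃ ρ : ℝ, 0 < ρ ∧ ρ < 1 ∧
    ORBGF μ (ι (ct (bw w))) (fun s => ι (ct (un hj s))) ρ π lam W Ω
  size : ∀ i, SIZEG (ι (bw w)) π (Ω i) m fun γ => nm (q γ)
  size' : ∀ i, SIZEG (ι (ct (bw w))) π (Ω i) m fun γ => nm (ct (q γ))

section leg

variable {k : Type} [NontriviallyNormedField k] [ProperSpace k] {N : ℕ}
  {E Γ K κ : Type} [Group E] [TopologicalSpace E] [Group Γ] [NormedAddCommGroup K]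
  [InnerProductSpace ℂ K] [CompleteSpace K] [Fintype κ]
  {π : E →* (K →L[ℂ] K)} {lam : Γ →* (K →L[ℂ] K)} {W : Set (K →L[ℂ] K)} {Ω : κ → K}
  {mp : (Γ → ℝ) → (K →L[ℂ] K)} {Bd Bf : Set K} {ms : E → Set Γ → ℝ}
  {ι : GG k N →* E} {a a' : E →* PG k (N + 1)} {w : kˣ} {q : Γ → GG k N} {ρ : Γ → ℝ}
  {Br : ℝ → Set Γ}

/-- **One leg from the fullness.** -/
theorem leg_caseF [MeasurableSpace k] {μ : Measure k}
    (S : SrcEF (ι (bw w)) π lam W Ω mp Bd Bf)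
    (hfin : ∀ ξ, ∀ ε : ℝ, 0 < ε → ∃ F : Finset Γ, ‖st mp ((F : Set Γ))ᶜ ξ‖ ≤ ε)
    (hom : ∀ i, ∃ c : ℂ, ∃ η ∈ Bf, Ω i = c • η)
    (had : Adm ι a a') (hw : ‖(w : k)‖ < 1) (hz : Cz w ι a a') (hT : Tg q ρ)
    (hB₁ : ∀ r, ∃ r', H859.CL.BB (g1 q) (g2 q ρ) r' ⊆ Br r)
    (hB₂ : ∀ r, ∃ r', H859.CL.BB (g1 fun γ => ct (q γ)) (g2 (fun γ => ct (q γ)) ρ) r' ⊆ Br r)
    (h₁ : H859.CN.SysF mp (fun g => π g) Bd ms (Subgroup.zpowers (ι (bw w))) Br (g1 q) (g2 q ρ))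
    (h₂ : H859.CN.SysF mp (fun g => π g) Bd ms (Subgroup.zpowers (ι (bw w))) Br
      (g1 fun γ => ct (q γ)) (g2 (fun γ => ct (q γ)) ρ))
    (nis : ∀ j, 1 ≤ j → j ≤ N → NIS fun (γ : Γ) (x : Gr k (Fin (N + 1)) j) => q γ • x)
    (hB : LegBF μ w ι π lam W Ω (st mp) q)
    (hf₁ : Full (st mp) (fun g => π g) (g1 q) (g2 q ρ) (pw (ι (bw w))⁻¹))
    (hf₂ : Full (st mp) (fun g => π g) (g1 fun γ => ct (q γ))
      (g2 (fun γ => ct (q γ)) ρ) (pw (ι (bw w)))) :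
    ∃ Ec F : YY k N → (CY k N →⋆ₐ[ℂ] (K →L[ℂ] K)),
      LegNF μ w ι a a' π lam W Ω (st mp) q (ZZ ρ) Ec F := by
  have hN := had.hN
  have hpic := S.pic
  have hloc : ∀ v, H107.LocAt (st mp) (π v) Bf := fun v => H43.loc_at S.loc v
  -- near-wall
  have n1 : ∀ i, NWS w ι π (Ω i) (st mp) q (ZZ ρ) :=
    nws_ofF (b := ι (bw w)) rfl hN hT h₁.sys hf₁ hfin hloc S.loc.map hom
  have n2 : ∀ i, NWS w (ι.comp ct) π (Ω i) (st mp) (fun γ => ct (q γ)) (ZZ ρ) := by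
    refine nws_ofF (b := (ι (bw w))⁻¹) ?_ hN hT.dual
      (h₂.sys.mono (by rw [Subgroup.zpowers_inv])) ?_ hfin hloc
      S.loc.map hom
    · change ι (ct (bw w)) = _
      rw [H859.TgN.ct_bw, map_inv]
    · rw [inv_inv]; exact hf₂
  -- the families
  letI i1 : MulAction Γ (YY k N) := actQ q hT.sn_ph
  letI i2 : MulAction Γ (YY k N) := actQ (fun γ => ct (q γ)) hT.dual.sn_ph
  have g₁ := @Tg.geoF k _ N Γ _ _ q ρ hT hN i1 (fun γ x => actQ_smul q hT.sn_ph γ x) Br hB₁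
  have g₂ := @Tg.geoF k _ N Γ _ _ _ ρ hT.dual hN i2
    (fun γ x => actQ_smul _ hT.dual.sn_ph γ x) Br hB₂
  obtain ⟨F₁, F₂, hF₁, hF₂⟩ := @two_famEF E Γ (YY k N) (YY k N) (ZA a) (ZA a')
    K κ _ _ _ _ _ _ _ i1 _ _ i2 _ _ _ _ (ι (bw w)) π lam
    W Ω mp Bd Bf ms
    (z0 a) (z0 a') Br (NWA q (ZZ ρ)) (NWA (fun γ => ct (q γ)) (ZZ ρ)) (g1 q) (g2 q ρ)
    (g1 fun γ => ct (q γ)) (g2 (fun γ => ct (q γ)) ρ) (fun γ => bp (q γ))
    (fun γ => bp (ct (q γ))) S (geoE_of_adm had hw hz) h₁ h₂ g₁ g₂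
    (Tg.cut (q := q) (ρ := ρ) hN) (Tg.cut (q := fun γ => ct (q γ)) (ρ := ρ) hN) hf₁ hf₂
  have nis₁ : NIS fun (γ : Γ) (x : YY k N) => q γ • x := nis_pt (nis 1 le_rfl (by omega))
  have nis₂ : NIS fun (γ : Γ) (x : YY k N) => ct (q γ) • x := nis_hyp (nis N (by omega) le_rfl)
  have ag₁ := @agr_famF k _ _ N E Γ K κ _ _ _ _ _ _ π lam
    W Ω (st mp) F₁ _
    (MulAction.compHom (YY k N) a) i1 (ccsQ q hT.sn_ph) hpic _ _ _ hF₁ (by
      have e : (fun (γ : Γ) (x : YY k N) => i1.smul γ x) =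
        fun (γ : Γ) (x : YY k N) => q γ • x := by
        funext γ x; exact actQ_smul q hT.sn_ph γ x
      change NIS (fun (γ : Γ) (x : YY k N) => i1.smul γ x)
      rw [e]
      exact nis₁) (moore_pts had) (gen_pts had)
  have ag₂ := @agr_famF k _ _ N E Γ K κ _ _ _ _ _ _ π lam
    W Ω (st mp) F₂ _
    (MulAction.compHom (YY k N) a') i2 (ccsQ (fun γ => ct (q γ)) hT.dual.sn_ph) hpic _ _ _ hF₂ (by
      have e : (fun (γ : Γ) (x : YY k N) => i2.smul γ x) =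
        fun (γ : Γ) (x : YY k N) => ct (q γ) • x := by
        funext γ x; exact actQ_smul _ hT.dual.sn_ph γ x
      change NIS (fun (γ : Γ) (x : YY k N) => i2.smul γ x)
      rw [e]
      exact nis₂) (moore_hyps had) (gen_hyps had)
  have e₁ : EFam w ι a π lam W (st mp) q (ZZ ρ) F₁ :=
    @efam_of_fam k _ _ N E Γ K _ _ _ _ _ w ι a π lam
      W (st mp) q (ZZ ρ) F₁
      (MulAction.compHom (YY k N) a) (fun e x => rfl) i1 (fun γ x => actQ_smul q hT.sn_ph γ x)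
      had.comp hF₁ ag₁
  have e₂ : EFam w (ι.comp ct) a' π lam W (st mp) (fun γ => ct (q γ)) (ZZ ρ) F₂ :=
    @efam_of_fam' k _ _ N E Γ K _ _ _ _ _ w ι π lam
      W (st mp) (fun γ => ct (q γ)) (ZZ ρ) F₂ a'
      (MulAction.compHom (YY k N) a') (fun e x => rfl) i2
      (fun γ x => actQ_smul _ hT.dual.sn_ph γ x) had.comp' hF₂ ag₂
  refine ⟨F₁, F₂, ?_⟩
  exact
    { adm := had
      hw := hw
      pic := hpic
      ms := hB.ms
      uc := hB.uc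
      ph := hT.sn_ph
      zm := zz_mono ρ
      ud := fun R => hT.ud R
      orb := hB.orb
      orb' := hB.orb'
      size := hB.size
      size' := hB.size'
      nws := n1
      nws' := n2
      e := e₁
      f := e₂
      nis := nis }

/-- **One leg**, of one of the two types. `hB` is asked for both types. -/
theorem leg_firstF [MeasurableSpace k] {μ : Measure k}
    (S : SrcEF (ι (bw w)) π lam W Ω mp Bd Bf)
    (hfin : ∀ ξ, ∀ ε : ℝ, 0 < ε → ∃ F : Finset Γ, ‖st mp ((F : Set Γ))ᶜ ξ‖ ≤ ε)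
    (hom : ∀ i, ∃ c : ℂ, ∃ η ∈ Bf, Ω i = c • η)
    (had : Adm ι a a') (hw : ‖(w : k)‖ < 1) (hz : Cz w ι a a') (hT : Tg q ρ)
    (hB₁ : ∀ r, ∃ r', H859.CL.BB (g1 q) (g2 q ρ) r' ⊆ Br r)
    (hB₂ : ∀ r, ∃ r', H859.CL.BB (g1 fun γ => ct (q γ)) (g2 (fun γ => ct (q γ)) ρ) r' ⊆ Br r)
    (h₁ : H859.CN.SysF mp (fun g => π g) Bd ms (Subgroup.zpowers (ι (bw w))) Br (g1 q) (g2 q ρ))
    (h₂ : H859.CN.SysF mp (fun g => π g) Bd ms (Subgroup.zpowers (ι (bw w))) Br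
      (g1 fun γ => ct (q γ)) (g2 (fun γ => ct (q γ)) ρ))
    (nis : ∀ j, 1 ≤ j → j ≤ N → NIS fun (γ : Γ) (x : Gr k (Fin (N + 1)) j) => q γ • x)
    (nis' : ∀ j, 1 ≤ j → j ≤ N → NIS fun (γ : Γ) (x : Gr k (Fin (N + 1)) j) => ct (q γ) • x)
    (hB : LegBF μ w ι π lam W Ω (st mp) q)
    (hB' : LegBF μ w ι π lam W Ω (st mp) fun γ => ct (q γ))
    (pos : H859.CN.Pos (st mp) (fun g => π g) (g2 q ρ) (g2 (fun γ => ct (q γ)) ρ) (pw (ι (bw w))))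
    (pos' : H859.CN.Pos (st mp) (fun g => π g) (g2 q ρ) (g2 (fun γ => ct (q γ)) ρ)
      (pw (ι (bw w))⁻¹)) :
    ∃ q' : Γ → GG k N, (q' = q ∨ q' = fun γ => ct (q γ)) ∧
      ∃ Ec F : YY k N → (CY k N →⋆ₐ[ℂ] (K →L[ℂ] K)),
      LegNF μ w ι a a' π lam W Ω (st mp) q' (ZZ ρ) Ec F := by
  have hN := had.hN
  obtain ⟨C, hC⟩ := hT.gaps hN
  letI i1 : MulAction Γ (YY k N) := actQ q hT.sn_ph
  have g₁ := @Tg.geoF k _ N Γ _ _ q ρ hT hN i1 (fun γ x => actQ_smul q hT.sn_ph γ x) Br hB₁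
  have nis₁ : NIS fun (γ : Γ) (x : YY k N) => γ • x := by
    have e : (fun (γ : Γ) (x : YY k N) => i1.smul γ x) =
      fun (γ : Γ) (x : YY k N) => q γ • x := by
      funext γ x; exact actQ_smul q hT.sn_ph γ x
    change NIS (fun (γ : Γ) (x : YY k N) => i1.smul γ x)
    rw [e]
    exact nis_pt (nis 1 le_rfl (by omega))
  have hG := geoE_of_adm had hw hz
  rcases dicho_picEF S.pic (b := ι (bw w)) h₁ g₁ S.mcov S.mW
    S.slow S.esc1 S.esc2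
    (H43.N.lu1_cn h₁ S.loc g₁.fin S.esc1)
    (H43.N.lu1_cn h₁ S.loc g₁.fin S.esc2)
    pos pos' S.sym hC nis₁
    hG.moore hG.moore' hG.cl with ⟨k1, k2⟩ | ⟨k1, k2⟩
  · have ec : (fun γ => ct (ct (q γ))) = q := funext fun γ => H859.TgN.ct_ct (q γ)
    refine ⟨fun γ => ct (q γ), Or.inr rfl, ?_⟩
    refine leg_caseF (Br := Br) S hfin hom had hw hz hT.dual hB₂ (by rw [ec]; exact hB₁) h₂
      (by rw [ec]; exact h₁) nis' hB' k2 ?_
    rw [ec]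
    exact k1
  · exact ⟨q, Or.inl rfl, leg_caseF (Br := Br) S hfin hom had hw hz hT hB₁ hB₂ h₁ h₂ nis hB k2 k1⟩

end leg

end Vale.Agent.P092.H962.NT
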