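import Vale.Agent.P092.H962.NT.LegT
import Vale.Agent.P092.H725.SN.LegBF

/-!
P092 (helper962), Team N, all `t`: the first leg of the picture of a triple with an honest family,
the fields `orb`, `orb'`, `size`, `size'` in helper725's letters, asked for all target maps.
-/

set_option linter.all false

open scoped InnerProductSpace ENNReal LinearAlgebra.Projectivization
open Filter Topology ContinuousLinearMap MeasureTheory TopologicalSpace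

namespace Vale.Agent.P092.H962.NT

open Vale.Agent.P092.SR
open Vale.Agent.P092.H21 (mT BdT BfT msT WT Hon nc nc_ne fin_T)
open Vale.Agent.P092.H85 (cdat)
open Vale.Agent.P092.H859.CL (st pw)
open Vale.Agent.P092.H859.TgN
open Vale.Agent.P092.RC (GG PG YY y0 ct PicF)
open Vale.Agent.P092.SN (CY PH Adm bw un nm)
open Vale.Agent.P092.SNT (LegNF ORBGF)
open Vale.Agent.P092.H100.Gr (Gr)
open Vale.Agent.P092.H76.Pur (NIS)
open Vale.Agent.P092.H368.SN (Cz pow_cocompact)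
open Vale.Agent.P092.SD (MsF UC)
open Vale.Agent.P092.H962.NX (LegBX)

section con

variable {E : Type} [Group E] [TopologicalSpace E] [IsTopologicalGroup E] [LocallyCompactSpace E]
  [SecondCountableTopology E] [T2Space E] [MeasurableSpace E] [BorelSpace E]
  {Γ : Subgroup E} [DiscreteTopology Γ] [Countable Γ] [MeasurableSpace (E ⧸ Γ)]
  [BorelSpace (E ⧸ Γ)] {ν : Measure (E ⧸ Γ)} [IsProbabilityMeasure ν]
  (hν : ∀ g : E, ν.map (fun x => g • x) = ν)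
  {ℋ κ κ' : Type} [Fintype κ] [Fintype κ'] [NormedAddCommGroup ℋ]
  [InnerProductSpace ℂ ℋ] [CompleteSpace ℋ] {V R₁ R₂ : Γ →* (ℋ →L[ℂ] ℋ)} {ξ : κ → ℋ}
  {ξ' : κ' → ℋ} (hT : Tri V R₁ R₂ ξ)
  (hΓ : ∀ g : Γ, g ≠ 1 → Set.Infinite {y : Γ | ∃ h, y = h * g * h⁻¹}) (hT' : Tri R₁ V R₂ ξ')
  (hh : Hon R₁ R₂ ξ)

include hΓ hT' hh

/-- the six fields, two fields -/
theorem legBX_of {kS k : Type} [NontriviallyNormedField kS] [NontriviallyNormedField k]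
    [MeasurableSpace kS] {μ : Measure kS} {N : ℕ} {w : kSˣ} {ι : GG kS N →* E} {q : Γ → GG k N}
    (L : H725.SN.LegBF μ w ι (H34.Ind.pi (cdat ν hν) (V := V) hT.adjV)
      (H34.Ind.lam (cdat ν hν) R₁) (WT (cdat ν hν) R₂) (OmN hν ξ)
      (st (mT (cdat ν hν) hT)) q) :
    LegBX μ w ι (H34.Ind.pi (cdat ν hν) (V := V) hT.adjV)
      (H34.Ind.lam (cdat ν hν) R₁) (WT (cdat ν hν) R₂) (OmN hν ξ)
      (st (mT (cdat ν hν) hT)) q where
  ms := msF_N hν hT hΓ hT' hh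
  uc := fun i => H21.uc_T hν hT i
  orb := L.orb
  orb' := L.orb'
  size := L.size
  size' := L.size'

/-- the six fields, one field -/
theorem legBF_of {k : Type} [NontriviallyNormedField k]
    [MeasurableSpace k] {μ : Measure k} {N : ℕ} {w : kˣ} {ι : GG k N →* E} {q : Γ → GG k N}
    (L : H725.SN.LegBF μ w ι (H34.Ind.pi (cdat ν hν) (V := V) hT.adjV)
      (H34.Ind.lam (cdat ν hν) R₁) (WT (cdat ν hν) R₂) (OmN hν ξ)
      (st (mT (cdat ν hν) hT)) q) :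
    LegBF μ w ι (H34.Ind.pi (cdat ν hν) (V := V) hT.adjV)
      (H34.Ind.lam (cdat ν hν) R₁) (WT (cdat ν hν) R₂) (OmN hν ξ)
      (st (mT (cdat ν hν) hT)) q where
  ms := msF_N hν hT hΓ hT' hh
  uc := fun i => H21.uc_T hν hT i
  orb := L.orb
  orb' := L.orb'
  size := L.size
  size' := L.size'

/-- **The first leg, one field**, of one of the two types. The four fields `orb`, `orb'`, `size`,
`size'` are asked for all target maps. -/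
theorem legG_first {k : Type} [NontriviallyNormedField k] [ProperSpace k] {N : ℕ}
    {ι : GG k N →* E} {a a' : E →* PG k (N + 1)} {w : kˣ} {q : Γ → GG k N} {ρ : Γ → ℝ}
    {Br : ℝ → Set Γ} [MeasurableSpace k] {μ : Measure k}
    (hP : PicF (H34.Ind.pi (cdat ν hν) (V := V) hT.adjV) (H34.Ind.lam (cdat ν hν) R₁)
      (WT (cdat ν hν) R₂) (OmN hν ξ))
    (had : Adm ι a a') (hw : ‖(w : k)‖ < 1) (hz : Cz w ι a a') (hTg : Tg q ρ)
    (hB₁ : ∀ r, ∃ r', H859.CL.BB (g1 q) (g2 q ρ) r' ⊆ Br r)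
    (hB₂ : ∀ r, ∃ r', H859.CL.BB (g1 fun γ => ct (q γ)) (g2 (fun γ => ct (q γ)) ρ) r' ⊆ Br r)
    (nrm : ∀ ε : ℝ, 0 < ε → ∃ r, ∀ u ∈ Subgroup.zpowers (ι (bw w)),
      msT (cdat ν hν) hT u (Br r) ≤ ε)
    (hL : ∀ q' : Γ → GG k N, PH q' →
      H725.SN.LegBF μ w ι (H34.Ind.pi (cdat ν hν) (V := V) hT.adjV)
        (H34.Ind.lam (cdat ν hν) R₁) (WT (cdat ν hν) R₂) (OmN hν ξ)
        (st (mT (cdat ν hν) hT)) q')
    (nis : ∀ j, 1 ≤ j → j ≤ N → NIS fun (γ : Γ) (x : Gr k (Fin (N + 1)) j) => q γ • x)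
    (nis' : ∀ j, 1 ≤ j → j ≤ N → NIS fun (γ : Γ) (x : Gr k (Fin (N + 1)) j) => ct (q γ) • x)
    (pos : PosF (st (mT (cdat ν hν) hT)) (H34.Ind.pi (cdat ν hν) (V := V) hT.adjV)
      (OmN hν ξ) (g2 q ρ) (g2 (fun γ => ct (q γ)) ρ) (ι (bw w)))
    (pos' : PosF (st (mT (cdat ν hν) hT)) (H34.Ind.pi (cdat ν hν) (V := V) hT.adjV)
      (OmN hν ξ) (g2 q ρ) (g2 (fun γ => ct (q γ)) ρ) (ι (bw w))⁻¹) :
    ∃ q' : Γ → GG k N, (q' = q ∨ q' = fun γ => ct (q γ)) ∧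
      ∃ Ec F : YY k N → (CY k N →⋆ₐ[ℂ] (Lp ℋ 2 (cdat ν hν).μ →L[ℂ] Lp ℋ 2 (cdat ν hν).μ)),
      LegNF μ w ι a a' (H34.Ind.pi (cdat ν hν) (V := V) hT.adjV)
        (H34.Ind.lam (cdat ν hν) R₁) (WT (cdat ν hν) R₂)
        (OmN hν ξ) (st (mT (cdat ν hν) hT)) q' (ZZ ρ) Ec F :=
  legT_first (μ := μ) hν hT hΓ hT' hh hP had hw hz hTg hB₁ hB₂ nrm
    nis nis' (legBF_of hν hT hΓ hT' hh (hL _ hTg.sn_ph))
    (legBF_of hν hT hΓ hT' hh (hL _ hTg.dual.sn_ph)) pos pos'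

/-- **The first leg, two fields**, of one of the two types. The four fields `orb`, `orb'`, `size`,
`size'` are asked for all target maps. -/
theorem legG_firstX {kS k : Type} [NontriviallyNormedField kS] [ProperSpace kS]
    [NontriviallyNormedField k] [ProperSpace k] {N : ℕ}
    {ι : GG kS N →* E} {a a' : E →* PG kS (N + 1)} {w : kSˣ} {q : Γ → GG k N} {ρ : Γ → ℝ}
    {Br : ℝ → Set Γ} [MeasurableSpace kS] {μ : Measure kS}
    (hP : PicF (H34.Ind.pi (cdat ν hν) (V := V) hT.adjV) (H34.Ind.lam (cdat ν hν) R₁)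
      (WT (cdat ν hν) R₂) (OmN hν ξ))
    (had : Adm ι a a') (hw : ‖(w : kS)‖ < 1) (hz : Cz w ι a a') (hTg : Tg q ρ)
    (hB₁ : ∀ r, ∃ r', H859.CL.BB (g1 q) (g2 q ρ) r' ⊆ Br r)
    (hB₂ : ∀ r, ∃ r', H859.CL.BB (g1 fun γ => ct (q γ)) (g2 (fun γ => ct (q γ)) ρ) r' ⊆ Br r)
    (nrm : ∀ ε : ℝ, 0 < ε → ∃ r, ∀ u ∈ Subgroup.zpowers (ι (bw w)),
      msT (cdat ν hν) hT u (Br r) ≤ ε)
    (hL : ∀ q' : Γ → GG k N, PH q' →
      H725.SN.LegBF μ w ι (H34.Ind.pi (cdat ν hν) (V := V) hT.adjV)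
        (H34.Ind.lam (cdat ν hν) R₁) (WT (cdat ν hν) R₂) (OmN hν ξ)
        (st (mT (cdat ν hν) hT)) q')
    (nis : ∀ j, 1 ≤ j → j ≤ N → NIS fun (γ : Γ) (x : Gr k (Fin (N + 1)) j) => q γ • x)
    (nis' : ∀ j, 1 ≤ j → j ≤ N → NIS fun (γ : Γ) (x : Gr k (Fin (N + 1)) j) => ct (q γ) • x)
    (pos : PosF (st (mT (cdat ν hν) hT)) (H34.Ind.pi (cdat ν hν) (V := V) hT.adjV)
      (OmN hν ξ) (g2 q ρ) (g2 (fun γ => ct (q γ)) ρ) (ι (bw w)))
    (pos' : PosF (st (mT (cdat ν hν) hT)) (H34.Ind.pi (cdat ν hν) (V := V) hT.adjV)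
      (OmN hν ξ) (g2 q ρ) (g2 (fun γ => ct (q γ)) ρ) (ι (bw w))⁻¹) :
    ∃ q' : Γ → GG k N, (q' = q ∨ q' = fun γ => ct (q γ)) ∧
      ∃ Ec F : YY kS N → (CY k N →⋆ₐ[ℂ] (Lp ℋ 2 (cdat ν hν).μ →L[ℂ] Lp ℋ 2 (cdat ν hν).μ)),
      SX.LegNF μ w ι a a' (H34.Ind.pi (cdat ν hν) (V := V) hT.adjV)
        (H34.Ind.lam (cdat ν hν) R₁) (WT (cdat ν hν) R₂)
        (OmN hν ξ) (st (mT (cdat ν hν) hT)) q' (ZZ ρ) Ec F :=
  legT_firstX (μ := μ) hν hT hΓ hT' hh hP had hw hz hTg hB₁ hB₂ nrm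
    nis nis' (legBX_of hν hT hΓ hT' hh (hL _ hTg.sn_ph))
    (legBX_of hν hT hΓ hT' hh (hL _ hTg.dual.sn_ph)) pos pos'

end con

end Vale.Agent.P092.H962.NT
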