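import Vale.Agent.P092.H859.CNE
import Vale.Agent.P092.H958.AmpD
import Vale.Agent.P092.H790.CTM

/-!
P092 (helper962), Team N, all `t`: from the vectors of the family to all vectors: cyclicity of a
family, tails, positions (`CN.Pos`).
-/

set_option linter.all false

open scoped InnerProductSpace ENNReal
open Filter Topology ContinuousLinearMap MeasureTheory TopologicalSpace

namespace Vale.Agent.P092.H962.NT

open Vale.Agent.P092.SD (MsF)
open Vale.Agent.P092.H790.CT (mulA oneA)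
open Vale.Agent.P092.RC (PicF Cm)
open Vale.Agent.P092.H859.CL (pw)

section ms

variable {Γ K κ : Type} [Group Γ] [Fintype κ] [NormedAddCommGroup K] [InnerProductSpace ℂ K]
  [CompleteSpace K] {lam : Γ →* (K →L[ℂ] K)} {W : Set (K →L[ℂ] K)} {Ω : κ → K}
  {m : Set Γ → (K →L[ℂ] K)} (h : MsF lam W Ω m)

include h in
theorem mf_inf_app (S T : Set Γ) (x : K) : m (S ∩ T) x = m S (m T x) :=
  congrArg (fun A : K →L[ℂ] K => A x) (h.inf S T)

include h in
theorem mf_compl_app (S : Set Γ) (x : K) : m Sᶜ x = x - m S x :=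
  congrArg (fun A : K →L[ℂ] K => A x) (h.compl S)

include h in
theorem mf_idem (S : Set Γ) (x : K) : m S (m S x) = m S x := by
  rw [← mf_inf_app h, Set.inter_self]

include h in
theorem mf_contr (S : Set Γ) (x : K) : ‖m S x‖ ≤ ‖x‖ := by
  have h1 : ⟪m S x, m S x⟫_ℂ = ⟪x, m S x⟫_ℂ := by
    rw [← adjoint_inner_right, h.adj, mf_idem h]
  have h2 : ‖m S x‖ ^ 2 ≤ ‖x‖ * ‖m S x‖ := by
    have e1 : ((‖m S x‖ ^ 2 : ℝ) : ℂ) = ⟪x, m S x⟫_ℂ := by
      rw [← h1, inner_self_eq_norm_sq_to_K]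
      norm_num
    have e2 := norm_inner_le_norm (𝕜 := ℂ) x (m S x)
    rw [← e1, Complex.norm_real, Real.norm_of_nonneg (sq_nonneg _)] at e2
    exact e2
  by_contra hc
  rw [not_le] at hc
  have h3 : 0 < ‖m S x‖ := (norm_nonneg x).trans_lt hc
  nlinarith

include h in
theorem mf_split (S T : Set Γ) (x : K) : m S x = m (S ∩ T) x + m (S ∩ Tᶜ) x := by
  rw [mf_inf_app h, mf_inf_app h, ← map_add, mf_compl_app h, add_sub_cancel]

include h in
theorem mf_empty : m (∅ : Set Γ) = 0 := by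
  have e1 : m ((∅ : Set Γ) ∩ (∅ : Set Γ)ᶜ) = m ∅ * m (∅ : Set Γ)ᶜ := h.inf _ _
  rw [h.compl, Set.empty_inter, mul_sub, mul_one, ← h.inf, Set.empty_inter, sub_self] at e1
  exact e1

include h in
theorem mf_union {S T : Set Γ} (hST : Disjoint S T) (x : K) : m (S ∪ T) x = m S x + m T x := by
  rw [mf_split h (S ∪ T) S x]
  congr 2
  · rw [Set.union_inter_cancel_left]
  · rw [Set.union_inter_distrib_right, Set.inter_compl_self, Set.empty_union]
    exact congrArg m (Set.inter_eq_self_of_subset_left fun a ha hs => hST.le_bot ⟨hs, ha⟩)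

/-- `m S` moved through `lam γ` -/
theorem mf_lam (h : MsF lam W Ω m) (S : Set Γ) (γ : Γ) (x : K) :
    m S (lam γ x) = lam γ (m {y | γ * y ∈ S} x) := by
  have e1 := h.cov γ {y | γ * y ∈ S}
  have e2 : (fun x => γ * x) '' {y | γ * y ∈ S} = S := by
    ext y
    constructor
    · rintro ⟨z, hz, rfl⟩
      exact hz
    · intro hy
      exact ⟨γ⁻¹ * y, by simpa using hy, by simp⟩
  rw [e2] at e1
  have e3 := congrArg (fun A : K →L[ℂ] K => A (lam γ x)) e1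
  rw [mulA, mulA] at e3
  rw [← e3]
  congr 2
  rw [← mulA, ← map_mul, inv_mul_cancel, map_one, oneA]

end ms

section cyc

variable {G Γ K κ : Type} [Group G] [TopologicalSpace G] [Group Γ] [Fintype κ]
  [NormedAddCommGroup K] [InnerProductSpace ℂ K] [CompleteSpace K]
  {π : G →* (K →L[ℂ] K)} {lam : Γ →* (K →L[ℂ] K)} {W : Set (K →L[ℂ] K)} {Ω : κ → K}
  {m : Set Γ → (K →L[ℂ] K)}

/-- **Cyclicity**, families. -/
theorem cyc_topF (hP : PicF π lam W Ω) (hM : MsF lam W Ω m) (P : Submodule ℂ K)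
    (hc : IsClosed (P : Set K)) (hΩ : ∀ i, Ω i ∈ P) (hW : ∀ w ∈ W, ∀ x ∈ P, w x ∈ P)
    (hL : ∀ γ, ∀ x ∈ P, lam γ x ∈ P) (ζ : K) : ζ ∈ P := by
  have h1 : ∀ ξ, m {1} ξ = ξ → ξ ∈ P := by
    intro ξ hξ
    have h2 := hM.cyc ξ hξ
    have h3 : (Submodule.span ℂ
        {η | ∃ i, ∃ w ∈ StarAlgebra.adjoin ℂ W, η = w (Ω i)} : Set K) ⊆ P := by
      refine Submodule.span_le.2 ?_
      rintro η ⟨i, w, hw, rfl⟩
      exact H790.CT.adjoin_mem hP.Wadj P hW hw _ (hΩ i)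
    exact (closure_minimal h3 hc) h2
  have h2 : ∀ γ, ∀ ξ, m {γ} ξ ∈ P := by
    intro γ ξ
    have e1 : ξ = lam γ (lam γ⁻¹ ξ) := by
      rw [← mulA, ← map_mul, mul_inv_cancel, map_one, oneA]
    rw [e1, mf_lam hM]
    refine hL γ _ (h1 _ ?_)
    have e2 : {y | γ * y ∈ ({γ} : Set Γ)} = {1} := by
      ext y
      simp
    rw [e2]
    exact mf_idem hM _ _
  have h3 : ∀ F : Finset Γ, ∀ ξ, m (F : Set Γ) ξ ∈ P := by
    classical
    intro F
    induction F using Finset.induction_on with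
    | empty =>
      intro ξ
      rw [Finset.coe_empty, mf_empty hM]
      exact P.zero_mem
    | insert a s ha ih =>
      intro ξ
      rw [Finset.coe_insert, Set.insert_eq, mf_union hM]
      · exact P.add_mem (h2 a ξ) (ih ξ)
      · rw [Set.disjoint_singleton_left]
        exact_mod_cast ha
  have h4 : ζ ∈ closure (P : Set K) := by
    rw [Metric.mem_closure_iff]
    intro ε hε
    obtain ⟨F, hF⟩ := hM.fin ζ (ε / 2) (half_pos hε)
    refine ⟨m (F : Set Γ) ζ, h3 F ζ, ?_⟩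
    rw [dist_eq_norm, ← mf_compl_app hM]
    linarith
  rwa [hc.closure_eq] at h4

theorem piF_norm (hP : PicF π lam W Ω) (g : G) (x : K) : ‖π g x‖ = ‖x‖ := by
  have e1 : ⟪π g x, π g x⟫_ℂ = ⟪x, x⟫_ℂ := by
    rw [← adjoint_inner_right, hP.adjP, ← mulA, ← map_mul, inv_mul_cancel, map_one, oneA]
  rw [inner_self_eq_norm_sq_to_K, inner_self_eq_norm_sq_to_K] at e1
  have e2 : ‖π g x‖ ^ 2 = ‖x‖ ^ 2 := by exact_mod_cast e1
  exact (pow_left_inj₀ (norm_nonneg _) (norm_nonneg _) two_ne_zero).1 e2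

theorem lamF_norm (hP : PicF π lam W Ω) (g : Γ) (x : K) : ‖lam g x‖ = ‖x‖ := by
  have e1 : ⟪lam g x, lam g x⟫_ℂ = ⟪x, x⟫_ℂ := by
    rw [← adjoint_inner_right, hP.adjL, ← mulA, ← map_mul, inv_mul_cancel, map_one, oneA]
  rw [inner_self_eq_norm_sq_to_K, inner_self_eq_norm_sq_to_K] at e1
  have e2 : ‖lam g x‖ ^ 2 = ‖x‖ ^ 2 := by exact_mod_cast e1
  exact (pow_left_inj₀ (norm_nonneg _) (norm_nonneg _) two_ne_zero).1 e2

/-- **Tails for all vectors, from tails at the vectors of the family.** -/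
theorem tailsF {I : Type} (hP : PicF π lam W Ω) (hM : MsF lam W Ω m) {l : Filter ℕ} (b : ℕ → G)
    (Sz : I → ℕ → Set Γ) (hI : Nonempty I)
    (hdir : ∀ i i', ∃ j, ∀ᶠ N in l, Sz j N ⊆ Sz i N ∧ Sz j N ⊆ Sz i' N)
    (htr : ∀ γ i, ∃ j, ∀ᶠ N in l, {y | γ * y ∈ Sz j N} ⊆ Sz i N)
    (h0 : ∀ c, ∀ ε > 0, ∃ i, ∀ᶠ N in l, ‖m (Sz i N) (π (b N) (Ω c))‖ ≤ ε) (ζ : K) :
    ∀ ε > 0, ∃ i, ∀ᶠ N in l, ‖m (Sz i N) (π (b N) ζ)‖ ≤ ε := by
  let P : Submodule ℂ K :=
    { carrier := {ζ | ∀ ε > 0, ∃ i, ∀ᶠ N in l, ‖m (Sz i N) (π (b N) ζ)‖ ≤ ε}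
      add_mem' := by
        intro x y hx hy ε hε
        obtain ⟨i, hi⟩ := hx (ε / 2) (half_pos hε)
        obtain ⟨i', hi'⟩ := hy (ε / 2) (half_pos hε)
        obtain ⟨j, hj⟩ := hdir i i'
        refine ⟨j, ?_⟩
        filter_upwards [hi, hi', hj] with N h1 h2 h3
        rw [map_add, map_add]
        refine (norm_add_le _ _).trans ?_
        have h4 := hM.mono h3.1 (π (b N) x)
        have h5 := hM.mono h3.2 (π (b N) y)
        linarith
      zero_mem' := by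
        intro ε hε
        refine ⟨hI.some, Eventually.of_forall fun N => ?_⟩
        rw [map_zero, map_zero, norm_zero]
        exact hε.le
      smul_mem' := by
        intro c x hx ε hε
        have hc : (0 : ℝ) < ‖c‖ + 1 := by positivity
        obtain ⟨i, hi⟩ := hx (ε / (‖c‖ + 1)) (div_pos hε hc)
        refine ⟨i, ?_⟩
        filter_upwards [hi] with N h1
        rw [map_smul, map_smul, norm_smul]
        calc ‖c‖ * ‖m (Sz i N) (π (b N) x)‖ ≤ (‖c‖ + 1) * (ε / (‖c‖ + 1)) := by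
              gcongr
              linarith
          _ = ε := by field_simp }
  have hPc : IsClosed (P : Set K) := by
    refine isClosed_of_closure_subset fun x hx => ?_
    intro ε hε
    obtain ⟨y, hy, hxy⟩ := Metric.mem_closure_iff.1 hx (ε / 2) (half_pos hε)
    obtain ⟨i, hi⟩ := hy (ε / 2) (half_pos hε)
    refine ⟨i, ?_⟩
    filter_upwards [hi] with N h1
    have e1 : m (Sz i N) (π (b N) x) = m (Sz i N) (π (b N) y) + m (Sz i N) (π (b N) (x - y)) := by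
      rw [← map_add, ← map_add, add_sub_cancel]
    rw [e1]
    refine (norm_add_le _ _).trans ?_
    have h2 : ‖m (Sz i N) (π (b N) (x - y))‖ ≤ ‖x - y‖ :=
      (mf_contr hM _ _).trans (piF_norm hP _ _).le
    rw [dist_eq_norm] at hxy
    linarith
  refine cyc_topF hP hM P hPc h0 ?_ ?_ ζ
  · intro w hw x hx ε hε
    have hc : (0 : ℝ) < ‖w‖ + 1 := by positivity
    obtain ⟨i, hi⟩ := hx (ε / (‖w‖ + 1)) (div_pos hε hc)
    refine ⟨i, ?_⟩
    filter_upwards [hi] with N h1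
    have hw' := hP.WP w hw (b N)
    have e1 : π (b N) (w x) = (π (b N) * w * π (b N)⁻¹) (π (b N) x) := by
      rw [mulA, mulA, ← mulA (π (b N)⁻¹), ← map_mul, inv_mul_cancel, map_one,
        oneA]
    have e2 : m (Sz i N) ((π (b N) * w * π (b N)⁻¹) (π (b N) x)) =
        (π (b N) * w * π (b N)⁻¹) (m (Sz i N) (π (b N) x)) :=
      congrArg (fun A : K →L[ℂ] K => A (π (b N) x)) (hM.cm (Sz i N) _ hw')
    rw [e1, e2, mulA, mulA, piF_norm hP]
    calc ‖w (π (b N)⁻¹ (m (Sz i N) (π (b N) x)))‖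
        ≤ ‖w‖ * ‖π (b N)⁻¹ (m (Sz i N) (π (b N) x))‖ := w.le_opNorm _
      _ = ‖w‖ * ‖m (Sz i N) (π (b N) x)‖ := by rw [piF_norm hP]
      _ ≤ (‖w‖ + 1) * (ε / (‖w‖ + 1)) := by
          gcongr
          linarith
      _ = ε := by field_simp
  · intro γ x hx ε hε
    obtain ⟨i, hi⟩ := hx ε hε
    obtain ⟨j, hj⟩ := htr γ i
    refine ⟨j, ?_⟩
    filter_upwards [hi, hj] with N h1 h2
    have e1 : π (b N) (lam γ x) = lam γ (π (b N) x) :=
      congrArg (fun A : K →L[ℂ] K => A x) (hP.comm (b N) γ)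
    rw [e1, mf_lam hM, lamF_norm hP]
    exact (hM.mono h2 _).trans h1

/-- the positions of the family along the powers of `b` -/
def PosF (m : Set Γ → (K →L[ℂ] K)) (π : G →* (K →L[ℂ] K)) (Ω : κ → K) (G2 H2 : Γ → ℝ) (b : G) :
    Prop :=
  ∀ c, ∀ ε : ℝ, 0 < ε → ∃ r : ℝ, ∀ᶠ i : ℕ in atTop,
    ‖m {γ | r < G2 γ ∧ r < H2 γ} (π (b ^ i) (Ω c))‖ ≤ ε

/-- **`Pos` on all vectors from `PosF`.** -/
theorem pos_of_fam (hP : PicF π lam W Ω) (hM : MsF lam W Ω m) {G2 H2 : Γ → ℝ}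
    (hG : ∀ s : Γ, ∃ C, ∀ x, |G2 (s * x) - G2 x| ≤ C ∧ |H2 (s * x) - H2 x| ≤ C) {b : G}
    (h : PosF m π Ω G2 H2 b) :
    H859.CN.Pos m (fun g => π g) G2 H2 (pw b) := by
  intro ξ ε hε
  have h1 := tailsF (I := ℝ) (l := atTop) hP hM (fun i : ℕ => b ^ i)
    (fun r _ => {γ | r < G2 γ ∧ r < H2 γ}) ⟨0⟩ (fun r r' => ⟨max r r', Eventually.of_forall
      fun _ => ⟨fun γ hγ => ⟨(le_max_left _ _).trans_lt hγ.1, (le_max_left _ _).trans_lt hγ.2⟩,
        fun γ hγ => ⟨(le_max_right _ _).trans_lt hγ.1, (le_max_right _ _).trans_lt hγ.2⟩⟩⟩)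
    (fun γ r => by
      obtain ⟨C, hC⟩ := hG γ
      refine ⟨r + C, Eventually.of_forall fun _ y hy => ?_⟩
      obtain ⟨h2, h3⟩ := hy
      have h4 := (abs_le.1 (hC y).1).2
      have h5 := (abs_le.1 (hC y).2).2
      exact ⟨by linarith, by linarith⟩) h ξ ε hε
  obtain ⟨r, hr⟩ := h1
  refine ⟨r, ?_⟩
  rw [pw, eventually_map]
  exact hr

end cyc

end Vale.Agent.P092.H962.NT
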