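import Vale.Agent.P092.H962.NT.RowT
import Vale.Agent.P092.H962.NT.PosF
import Vale.Agent.P092.H962.NT.LegX

/-!
P092 (helper962), Team N, all `t`: the first leg of the picture `L²(E/Γ; ℋ)` of a triple with an
honest family, `E` any second countable locally compact group: `SNT.LegNF` and `SX.LegNF` (two
fields) from `nrm`, the positions of the family and the six fields.
-/

set_option linter.all false

open scoped InnerProductSpace ENNReal LinearAlgebra.Projectivization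
open Filter Topology ContinuousLinearMap MeasureTheory TopologicalSpace

namespace Vale.Agent.P092.H962.NT

open Vale.Agent.P092.SR
open Vale.Agent.P092.H160 (Ell2)
open Vale.Agent.P092.H21 (mT BdT BfT msT WT Hon nc nc_ne fin_T)
open Vale.Agent.P092.H85 (cdat)
open Vale.Agent.P092.H34 (Ind.pi Ind.lam)
open Vale.Agent.P092.H859.CL (st pw)
open Vale.Agent.P092.H859.TgN
open Vale.Agent.P092.RC (GG PG YY y0 ct PicF)
open Vale.Agent.P092.SN (CY PH Adm bw un nm)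
open Vale.Agent.P092.SNT (LegNF ORBGF)
open Vale.Agent.P092.H100.Gr (Gr)
open Vale.Agent.P092.H76.Pur (NIS)
open Vale.Agent.P092.H368.SN (Cz pow_cocompact)
open Vale.Agent.P092.H368.SN.NT (SrcEF)
open Vale.Agent.P092.SD (MsF UC)
open Vale.Agent.P092.H962.NX (LegBX leg_firstX)

/-- Left slow variation of the second gaps. -/
theorem gap_left {k : Type} [NontriviallyNormedField k] [ProperSpace k] {N : ℕ} {Γ : Type}
    [Group Γ] {q : Γ → GG k N} {ρ : Γ → ℝ} (hT : Tg q ρ) (hN : 2 ≤ N) (s : Γ) :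
    ∃ C, ∀ x, |g2 q ρ (s * x) - g2 q ρ x| ≤ C ∧
      |g2 (fun γ => ct (q γ)) ρ (s * x) - g2 (fun γ => ct (q γ)) ρ x| ≤ C := by
  obtain ⟨C, hC⟩ := hT.gap2 hN s 1
  obtain ⟨C', hC'⟩ := hT.dual.gap2 hN s 1
  refine ⟨max C C', fun x => ⟨?_, ?_⟩⟩
  · have := (hC x).2
    rw [mul_one] at this
    exact this.trans (le_max_left _ _)
  · have := (hC' x).2
    rw [mul_one] at this
    exact this.trans (le_max_right _ _)

section leg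

variable {E : Type} [Group E] [TopologicalSpace E] [IsTopologicalGroup E] [LocallyCompactSpace E]
  [SecondCountableTopology E] [T2Space E] [MeasurableSpace E] [BorelSpace E]
  {Γ : Subgroup E} [DiscreteTopology Γ] [MeasurableSpace (E ⧸ Γ)] [BorelSpace (E ⧸ Γ)]
  {ν : Measure (E ⧸ Γ)} [IsProbabilityMeasure ν] [Countable Γ]
  (hν : ∀ g : E, ν.map (fun x => g • x) = ν)
  {ℋ κ κ' : Type} [Fintype κ] [Fintype κ'] [NormedAddCommGroup ℋ]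
  [InnerProductSpace ℂ ℋ] [CompleteSpace ℋ] {V R₁ R₂ : Γ →* (ℋ →L[ℂ] ℋ)} {ξ : κ → ℋ}
  {ξ' : κ' → ℋ}

/-- The normalised family on the picture. -/
noncomputable def OmN (hν : ∀ g : E, ν.map (fun x => g • x) = ν) (ξ : κ → ℋ) (i : κ) :
    Lp ℋ 2 (cdat ν hν).μ := Lp.const 2 (cdat ν hν).μ (nc ξ • ξ i)

variable (hT : Tri V R₁ R₂ ξ)
  (hΓ : ∀ g : Γ, g ≠ 1 → Set.Infinite {y : Γ | ∃ h, y = h * g * h⁻¹}) (hT' : Tri R₁ V R₂ ξ')
  (hh : Hon R₁ R₂ ξ)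

include hΓ hT' hh

/-- **`MsF`** -/
theorem msF_N : MsF (H34.Ind.lam (cdat ν hν) R₁) (WT (cdat ν hν) R₂) (OmN hν ξ)
    (st (mT (cdat ν hν) hT)) :=
  H458.HalfT.msF_E (cdat ν hν) hT hh hT' hΓ (nc_ne hT)

/-- **The first leg, one field**, of one of the two types. -/
theorem legT_first {k : Type} [NontriviallyNormedField k] [ProperSpace k] {N : ℕ}
    {ι : GG k N →* E} {a a' : E →* PG k (N + 1)} {w : kˣ} {q : Γ → GG k N} {ρ : Γ → ℝ}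
    {Br : ℝ → Set Γ} [MeasurableSpace k] {μ : Measure k}
    (hP : PicF (H34.Ind.pi (cdat ν hν) (V := V) hT.adjV) (H34.Ind.lam (cdat ν hν) R₁)
      (WT (cdat ν hν) R₂) (OmN hν ξ))
    (had : Adm ι a a') (hw : ‖(w : k)‖ < 1) (hz : Cz w ι a a') (hTg : Tg q ρ)
    (hB₁ : ∀ r, ∃ r', H859.CL.BB (g1 q) (g2 q ρ) r' ⊆ Br r)
    (hB₂ : ∀ r, ∃ r', H859.CL.BB (g1 fun γ => ct (q γ)) (g2 (fun γ => ct (q γ)) ρ) r' ⊆ Br r)
    (nrm : ∀ ε : ℝ, 0 < ε → ∃ r, ∀ u ∈ Subgroup.zpowers (ι (bw w)),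
      msT (cdat ν hν) hT u (Br r) ≤ ε)
    (nis : ∀ j, 1 ≤ j → j ≤ N → NIS fun (γ : Γ) (x : Gr k (Fin (N + 1)) j) => q γ • x)
    (nis' : ∀ j, 1 ≤ j → j ≤ N → NIS fun (γ : Γ) (x : Gr k (Fin (N + 1)) j) => ct (q γ) • x)
    (hB : LegBF μ w ι (H34.Ind.pi (cdat ν hν) (V := V) hT.adjV) (H34.Ind.lam (cdat ν hν) R₁)
      (WT (cdat ν hν) R₂) (OmN hν ξ) (st (mT (cdat ν hν) hT)) q)
    (hB' : LegBF μ w ι (H34.Ind.pi (cdat ν hν) (V := V) hT.adjV) (H34.Ind.lam (cdat ν hν) R₁)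
      (WT (cdat ν hν) R₂) (OmN hν ξ) (st (mT (cdat ν hν) hT)) fun γ => ct (q γ))
    (pos : PosF (st (mT (cdat ν hν) hT)) (H34.Ind.pi (cdat ν hν) (V := V) hT.adjV) (OmN hν ξ)
      (g2 q ρ) (g2 (fun γ => ct (q γ)) ρ) (ι (bw w)))
    (pos' : PosF (st (mT (cdat ν hν) hT)) (H34.Ind.pi (cdat ν hν) (V := V) hT.adjV) (OmN hν ξ)
      (g2 q ρ) (g2 (fun γ => ct (q γ)) ρ) (ι (bw w))⁻¹) :
    ∃ q' : Γ → GG k N, (q' = q ∨ q' = fun γ => ct (q γ)) ∧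
      ∃ Ec F : YY k N → (CY k N →⋆ₐ[ℂ] (Lp ℋ 2 (cdat ν hν).μ →L[ℂ] Lp ℋ 2 (cdat ν hν).μ)),
      LegNF μ w ι a a' (H34.Ind.pi (cdat ν hν) (V := V) hT.adjV) (H34.Ind.lam (cdat ν hν) R₁)
        (WT (cdat ν hν) R₂) (OmN hν ξ) (st (mT (cdat ν hν) hT)) q' (ZZ ρ) Ec F := by
  have hN := had.hN
  have hb := pow_cocompact had hw
  have S := srcEF_T hν hT hΓ hT' hh hb hP
  have h₁ := sysN_T (A := Subgroup.zpowers (ι (bw w))) (cdat ν hν) hT hΓ hT' hh (hTg.gap2 hN)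
    hB₁ nrm
  have h₂ := sysN_T (A := Subgroup.zpowers (ι (bw w))) (cdat ν hν) hT hΓ hT' hh
    (hTg.dual.gap2 hN) hB₂ nrm
  have hM := msF_N hν hT hΓ hT' hh
  exact leg_firstF S (fun ξ ε hε => fin_T (cdat ν hν) hT hh ξ hε)
    (om_TF (cdat ν hν) hT hΓ hT' (nc ξ)) had hw hz hTg hB₁ hB₂ h₁ h₂ nis nis' hB hB'
    (pos_of_fam hP hM (gap_left hTg hN) pos) (pos_of_fam hP hM (gap_left hTg hN) pos')

/-- **The first leg, two fields**, of one of the two types. -/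
theorem legT_firstX {kS k : Type} [NontriviallyNormedField kS] [ProperSpace kS]
    [NontriviallyNormedField k] [ProperSpace k] {N : ℕ}
    {ι : GG kS N →* E} {a a' : E →* PG kS (N + 1)} {w : kSˣ} {q : Γ → GG k N} {ρ : Γ → ℝ}
    {Br : ℝ → Set Γ} [MeasurableSpace kS] {μ : Measure kS}
    (hP : PicF (H34.Ind.pi (cdat ν hν) (V := V) hT.adjV) (H34.Ind.lam (cdat ν hν) R₁)
      (WT (cdat ν hν) R₂) (OmN hν ξ))
    (had : Adm ι a a') (hw : ‖(w : kS)‖ < 1) (hz : Cz w ι a a') (hTg : Tg q ρ)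
    (hB₁ : ∀ r, ∃ r', H859.CL.BB (g1 q) (g2 q ρ) r' ⊆ Br r)
    (hB₂ : ∀ r, ∃ r', H859.CL.BB (g1 fun γ => ct (q γ)) (g2 (fun γ => ct (q γ)) ρ) r' ⊆ Br r)
    (nrm : ∀ ε : ℝ, 0 < ε → ∃ r, ∀ u ∈ Subgroup.zpowers (ι (bw w)),
      msT (cdat ν hν) hT u (Br r) ≤ ε)
    (nis : ∀ j, 1 ≤ j → j ≤ N → NIS fun (γ : Γ) (x : Gr k (Fin (N + 1)) j) => q γ • x)
    (nis' : ∀ j, 1 ≤ j → j ≤ N → NIS fun (γ : Γ) (x : Gr k (Fin (N + 1)) j) => ct (q γ) • x)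
    (hB : LegBX μ w ι (H34.Ind.pi (cdat ν hν) (V := V) hT.adjV) (H34.Ind.lam (cdat ν hν) R₁)
      (WT (cdat ν hν) R₂) (OmN hν ξ) (st (mT (cdat ν hν) hT)) q)
    (hB' : LegBX μ w ι (H34.Ind.pi (cdat ν hν) (V := V) hT.adjV) (H34.Ind.lam (cdat ν hν) R₁)
      (WT (cdat ν hν) R₂) (OmN hν ξ) (st (mT (cdat ν hν) hT)) fun γ => ct (q γ))
    (pos : PosF (st (mT (cdat ν hν) hT)) (H34.Ind.pi (cdat ν hν) (V := V) hT.adjV) (OmN hν ξ)
      (g2 q ρ) (g2 (fun γ => ct (q γ)) ρ) (ι (bw w)))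
    (pos' : PosF (st (mT (cdat ν hν) hT)) (H34.Ind.pi (cdat ν hν) (V := V) hT.adjV) (OmN hν ξ)
      (g2 q ρ) (g2 (fun γ => ct (q γ)) ρ) (ι (bw w))⁻¹) :
    ∃ q' : Γ → GG k N, (q' = q ∨ q' = fun γ => ct (q γ)) ∧
      ∃ Ec F : YY kS N → (CY k N →⋆ₐ[ℂ] (Lp ℋ 2 (cdat ν hν).μ →L[ℂ] Lp ℋ 2 (cdat ν hν).μ)),
      SX.LegNF μ w ι a a' (H34.Ind.pi (cdat ν hν) (V := V) hT.adjV)
        (H34.Ind.lam (cdat ν hν) R₁)
        (WT (cdat ν hν) R₂) (OmN hν ξ) (st (mT (cdat ν hν) hT)) q' (ZZ ρ) Ec F := by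
  have hN := had.hN
  have hb := pow_cocompact had hw
  have S := srcEF_T hν hT hΓ hT' hh hb hP
  have h₁ := sysN_T (A := Subgroup.zpowers (ι (bw w))) (cdat ν hν) hT hΓ hT' hh (hTg.gap2 hN)
    hB₁ nrm
  have h₂ := sysN_T (A := Subgroup.zpowers (ι (bw w))) (cdat ν hν) hT hΓ hT' hh
    (hTg.dual.gap2 hN) hB₂ nrm
  have hM := msF_N hν hT hΓ hT' hh
  exact leg_firstX S (fun ξ ε hε => fin_T (cdat ν hν) hT hh ξ hε)
    (om_TF (cdat ν hν) hT hΓ hT' (nc ξ)) had hw hz hTg hB₁ hB₂ h₁ h₂ nis nis' hB hB'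
    (pos_of_fam hP hM (gap_left hTg hN) pos) (pos_of_fam hP hM (gap_left hTg hN) pos')

end leg

end Vale.Agent.P092.H962.NT
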