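import Vale.Agent.P092.H962.NT.OutT
import Vale.Agent.P092.H34.X.PosPT
import Vale.Agent.P092.H962.C.PicT
import Vale.Agent.P092.H458.T.Hon
import Vale.Agent.P092.H859.ExB

/-!
P092 (helper962), Team N, products, all `t`: the output of the wall analysis on the model
`L²(E/Γ; HH(α, α, α))`.
-/

set_option linter.all false

open scoped InnerProductSpace ENNReal LinearAlgebra.Projectivization
open Filter Topology ContinuousLinearMap MeasureTheory TopologicalSpace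

namespace Vale.Agent.P092.H962.NT

open Vale.Agent.P092.SR Vale.Agent.P092.H160 Vale.Agent.P092.H103 Vale.Agent.P092.H962
open Vale.Agent.P092.H21 (mT WT Hon)
open Vale.Agent.P092.H85 (cdat)
open Vale.Agent.P092.H859.CL (st)
open Vale.Agent.P092.RC (GG PG YY y0 ct PicF adjV3)
open Vale.Agent.P092.SN (CY PH UD Adm bw un nm)
open Vale.Agent.P092.H368.SN (Cz)

section con

variable {E : Type} [Group E] [TopologicalSpace E] [IsTopologicalGroup E] [LocallyCompactSpace E]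
  [SecondCountableTopology E] [T2Space E] [MeasurableSpace E] [BorelSpace E]
  {Γ : Subgroup E} [DiscreteTopology Γ] [Countable Γ] [MeasurableSpace (E ⧸ Γ)]
  [BorelSpace (E ⧸ Γ)] {ν : Measure (E ⧸ Γ)} [IsProbabilityMeasure ν]
  (hν : ∀ g : E, ν.map (fun x => g • x) = ν)
  (hΓ : ∀ g : Γ, g ≠ 1 → Set.Infinite {y : Γ | ∃ h, y = h * g * h⁻¹})
  {Λ : Type} [Group Λ] [Countable Λ]
  (hΛ : ∀ s : Λ, s ≠ 1 → Set.Infinite {y : Λ | ∃ h, y = h * s * h⁻¹})
  {I : Type} [Fintype I] {α : Γ → (Ell2 (I × Λ) →L[ℂ] Ell2 (I × Λ))} (hα : AF α)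
  {κ : Type} [Fintype κ] {ξ : κ → HH (PT α α α)}
  (hT : Tri (V3 hα hα hα) (A3R hα hα hα) (B3R hα hα hα) ξ)

include hΓ hΛ in
/-- **`PicF`** -/
theorem picF_HH [NoncompactSpace E] :
    PicF (H34.Ind.pi (cdat ν hν) (V := V3 hα hα hα) hT.adjV)
      (H34.Ind.lam (cdat ν hν) (A3R hα hα hα))
      (WT (cdat ν hν) (B3R hα hα hα)) (OmN hν ξ) :=
  (RC.pic2F_HH hν hα hα hα hΓ hΛ (adjV3 hα) hT).leg₁

variable (hh : Hon (A3R hα hα hα) (B3R hα hα hα) ξ)
  {J : Type} [Fintype J] [DecidableEq J]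
  {k l : J → Type} [∀ j, NontriviallyNormedField (k j)] [∀ j, ProperSpace (k j)]
  [∀ j, NontriviallyNormedField (l j)] [∀ j, ProperSpace (l j)] {N : J → ℕ}

include hΓ hΛ hh in
/-- **The output of the wall analysis.** -/
theorem exists_outP [Nonempty J] (hk : ∀ j, H933.LocK (k j)) (hl : ∀ j, H933.LocK (l j))
    {ι : ∀ j, GG (k j) (N j) →* E} {a a' : ∀ j, E →* PG (k j) (N j + 1)}
    {w : ∀ j, (k j)ˣ} {q : ∀ j, Γ → GG (l j) (N j)} (hA : ∀ j, Adm (ι j) (a j) (a' j))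
    (hcomm : ∀ i j, i ≠ j → ∀ g h, Commute (ι i g) (ι j h))
    (hw : ∀ j, ‖(w j : k j)‖ < 1) (hz : ∀ j, Cz (w j) (ι j) (a j) (a' j))
    (hq : ∀ j, PH (q j)) (fin : ∀ C : ℝ, {γ : Γ | ∀ j, nm (q j γ) ≤ C}.Finite) :
    ∃ (Br : ℝ → Set Γ) (τ : J → J), OutP hν hT ι w q Br τ := by
  obtain ⟨j₀⟩ := ‹Nonempty J›
  haveI : Nonempty J := ⟨j₀⟩
  haveI : NoncompactSpace E := H859.ExB.noncpt (hA j₀) (hw j₀)
  obtain ⟨m, m', ζ, h'⟩ := exists_tri' hα hα hα hΛ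
  refine outP_of hν hT hΓ h' hh (picF_HH hν hΓ hΛ hα hT) hk hl hA hcomm hw hz hq fin ?_
  intro i j hj ht b hb c ε hε
  exact H34.HMK.posP_HH hν hΓ hΛ hα hT hh hl
    (fun j => lt_of_lt_of_le zero_lt_two (hA j).hN) hq fin (hk i) (hA i).hN (hA i).cι
    (hA i).ca (hA i).comp (hw i) j hj ht hb c hε

end con

end Vale.Agent.P092.H962.NT
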