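import Vale.Agent.P092.H962.NT.ExPT
import Vale.Agent.P092.H337.NGk
import Vale.Agent.P092.H337.NGm
import Vale.Agent.P092.H34.X.BaseT
import Vale.Agent.P092.H776.KW

/-!
P092 (helper962), Team N, products, all `t`: the output of the wall analysis on the picture of a
triple with an honest family, from helper337's `exists_tauT`, `tau_outF`, up to the positions.
-/

set_option linter.all false

open scoped InnerProductSpace ENNReal LinearAlgebra.Projectivization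
open Filter Topology ContinuousLinearMap MeasureTheory TopologicalSpace

namespace Vale.Agent.P092.H962.NT

open Vale.Agent.P092.SR
open Vale.Agent.P092.H21 (mT BdT BfT msT WT Hon nc nc_ne fin_T)
open Vale.Agent.P092.H85 (cdat)
open Vale.Agent.P092.H34.HMK (mX mX_ind sharp_mX)
open Vale.Agent.P092.H859.CL (st pw)
open Vale.Agent.P092.RC (GG PG YY y0 ct PicF)
open Vale.Agent.P092.SN (CY PH UD Adm bw un nm NW NWA NWS EFam)
open Vale.Agent.P092.SNP (ZP AdmP)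
open Vale.Agent.P092.H368.SN (Cz pow_cocompact)
open Vale.Agent.P092.H337.NG (rho G2 RG)

section mass

variable {E : Type} [Group E] [TopologicalSpace E] [IsTopologicalGroup E] [LocallyCompactSpace E]
  [SecondCountableTopology E] [T2Space E] [MeasurableSpace E] [BorelSpace E]
  {Γ : Subgroup E} [DiscreteTopology Γ] [Countable Γ] [MeasurableSpace (E ⧸ Γ)]
  [BorelSpace (E ⧸ Γ)] {ν : Measure (E ⧸ Γ)} [IsProbabilityMeasure ν]
  (hν : ∀ g : E, ν.map (fun x => g • x) = ν)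
  {κ κ' ℋ : Type} [Fintype κ] [Fintype κ'] [NormedAddCommGroup ℋ] [InnerProductSpace ℂ ℋ]
  [CompleteSpace ℋ] {V R₁ R₂ : Γ →* (ℋ →L[ℂ] ℋ)} {ξ : κ → ℋ} {ξ' : κ' → ℋ}
  (hT : Tri V R₁ R₂ ξ)
  (hΓ : ∀ g : Γ, g ≠ 1 → Set.Infinite {y : Γ | ∃ h, y = h * g * h⁻¹})
  (hT' : Tri R₁ V R₂ ξ') (hh : Hon R₁ R₂ ξ)

include hh hT' hΓ

/-- The masses of sets, for the normalised family. -/
theorem mX_nrm (g : E) (S : Set Γ) :
    mX hν hT g (H538.ind fun x => x ∈ S) = (‖nc ξ‖ ^ 2)⁻¹ *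
      ∑ i, ‖st (mT (cdat ν hν) hT) S
        (H34.Ind.pi (cdat ν hν) (V := V) hT.adjV g (OmN hν ξ i))‖ ^ 2 := by
  have hc : ‖nc ξ‖ ^ 2 ≠ 0 := pow_ne_zero 2 (norm_ne_zero_iff.2 (nc_ne hT))
  rw [mX_ind hν hT hh hT' hΓ, eq_inv_mul_iff_mul_eq₀ hc, Finset.mul_sum]
  refine Finset.sum_congr rfl fun i _ => ?_
  have e1 : OmN hν ξ i = nc ξ • Lp.const 2 (cdat ν hν).μ (ξ i) := rfl
  rw [e1, map_smul, map_smul, norm_smul, mul_pow]

variable (hP : PicF (H34.Ind.pi (cdat ν hν) (V := V) hT.adjV) (H34.Ind.lam (cdat ν hν) R₁)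
    (WT (cdat ν hν) R₂) (OmN hν ξ))
  {J : Type} [Fintype J] [DecidableEq J]
  {k l : J → Type} [∀ j, NontriviallyNormedField (k j)] [∀ j, ProperSpace (k j)]
  [∀ j, NontriviallyNormedField (l j)] [∀ j, ProperSpace (l j)] {N : J → ℕ}

include hP

/-- **The output of the wall analysis**, from the positions. -/
theorem outP_of [Nonempty J] (hk : ∀ j, H933.LocK (k j)) (hl : ∀ j, H933.LocK (l j))
    {ι : ∀ j, GG (k j) (N j) →* E} {a a' : ∀ j, E →* PG (k j) (N j + 1)}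
    {w : ∀ j, (k j)ˣ} {q : ∀ j, Γ → GG (l j) (N j)} (hA : ∀ j, Adm (ι j) (a j) (a' j))
    (hcomm : ∀ i j, i ≠ j → ∀ g h, Commute (ι i g) (ι j h))
    (hw : ∀ j, ‖(w j : k j)‖ < 1) (hz : ∀ j, Cz (w j) (ι j) (a j) (a' j))
    (hq : ∀ j, PH (q j)) (fin : ∀ C : ℝ, {γ : Γ | ∀ j, nm (q j γ) ≤ C}.Finite)
    (hpos : ∀ i j, N j = N i →
      (∀ ε : ℝ, 0 < ε → ∃ r : ℝ, ∀ g : GG (k i) (N i), ∀ c,
        ‖st (mT (cdat ν hν) hT) {γ | ∃ j', j' ≠ j ∧ r < nm (q j' γ)}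
          (H34.Ind.pi (cdat ν hν) (V := V) hT.adjV (ι i g) (OmN hν ξ c))‖ ≤ ε) →
      ∀ b : E, b = ι i (bw (w i)) ∨ b = (ι i (bw (w i)))⁻¹ → ∀ c (ε : ℝ), 0 < ε →
        ∃ r : ℝ, ∀ᶠ t : ℕ in atTop,
          ‖st (mT (cdat ν hν) hT) {γ | r < G2 (q j γ) ∧ r < G2 (ct (q j γ))}
            (H34.Ind.pi (cdat ν hν) (V := V) hT.adjV (b ^ t) (OmN hν ξ c))‖ ≤ ε) :
    ∃ (Br : ℝ → Set Γ) (τ : J → J), OutP hν hT ι w q Br τ := by
  have hN2 : ∀ j, 2 ≤ N j := fun j => (hA j).hN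
  have hN1 : ∀ j, 1 ≤ N j := fun j => le_trans one_le_two (hN2 j)
  have hM := msF_N hν hT hΓ hT' hh
  obtain ⟨Br, τ₀, hB, nrm, h1⟩ := H337.NG.exists_tauT hν hT hΓ hT' hh hP hA hcomm hw hz hl hN1
    le_rfl hq fin
  obtain ⟨τ, hτ, hτN, t1, t2⟩ := H337.NG.TW.tau_outF (a := a) (mass := mX hν hT)
    (fun _ => ⟨_, sharp_mX hν hT hT' hΓ⟩)
    (fun u S => (mX_nrm hν hT hΓ hT' hh u S).le) hP hM hl (fun j => hN1 j) (fun j => (hA j).cι)
    (fun j => (hA j).ca) (fun j => (hA j).comp) hcomm hq fin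
    (fun j => H776.KW.kak_walls (hk j) (w j) (hw j)) fun i => ⟨τ₀ i, h1 i⟩
  exact ⟨Br, τ, hB, nrm, hτ, hτN, fun i c => t1 i _,
    fun i c => hpos i (τ i) (hτN i) (t2 i) _ (Or.inl rfl) c,
    fun i c => hpos i (τ i) (hτN i) (t2 i) _ (Or.inr rfl) c⟩

end mass

end Vale.Agent.P092.H962.NT
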