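import Vale.Agent.P092.H962.NT.OutHH

/-!
P092 (helper962), Team N, products with mixed fields, all `t`: **[P-EX-T]**, the first family of
legs of the model over any source group with finitely many factors.
-/

set_option linter.all false

open scoped InnerProductSpace ENNReal LinearAlgebra.Projectivization
open Filter Topology ContinuousLinearMap MeasureTheory TopologicalSpace

namespace Vale.Agent.P092.H962.NT

open Vale.Agent.P092.SR Vale.Agent.P092.H160 Vale.Agent.P092.H103 Vale.Agent.P092.H962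
open Vale.Agent.P092.H21 (mT WT Hon)
open Vale.Agent.P092.H85 (cdat)
open Vale.Agent.P092.H859.CL (st)
open Vale.Agent.P092.RC (GG PG YY y0 ct PicF adjV3)
open Vale.Agent.P092.SN (CY PH UD Adm bw un nm)
open Vale.Agent.P092.SNP (ZP)
open Vale.Agent.P092.H100.Gr (Gr)
open Vale.Agent.P092.H76.Pur (NIS)
open Vale.Agent.P092.H35 (sp)
open Vale.Agent.P092.H368.SN (Cz)

section ex

variable {E : Type} [Group E] [TopologicalSpace E] [IsTopologicalGroup E] [LocallyCompactSpace E]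
  [SecondCountableTopology E] [T2Space E] [MeasurableSpace E] [BorelSpace E]
  {Γ : Subgroup E} [DiscreteTopology Γ] [Countable Γ] [MeasurableSpace (E ⧸ Γ)]
  [BorelSpace (E ⧸ Γ)] {ν : Measure (E ⧸ Γ)} [IsProbabilityMeasure ν]
  (hν : ∀ g : E, ν.map (fun x => g • x) = ν)
  (hΓ : ∀ g : Γ, g ≠ 1 → Set.Infinite {y : Γ | ∃ h, y = h * g * h⁻¹})
  {Λ : Type} [Group Λ] [Countable Λ]
  (hΛ : ∀ s : Λ, s ≠ 1 → Set.Infinite {y : Λ | ∃ h, y = h * s * h⁻¹})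
  {I : Type} [Fintype I] {α : Γ → (Ell2 (I × Λ) →L[ℂ] Ell2 (I × Λ))} (hα : AF α)
  {J : Type} [Fintype J] [DecidableEq J] {N : J → ℕ}

set_option maxHeartbeats 3200000 in
include hΓ hΛ in
/-- **The first family of legs, all `t`, two fields.** -/
theorem exPX1_of {k l : J → Type} [∀ j, NontriviallyNormedField (k j)] [∀ j, ProperSpace (k j)]
    [∀ j, MeasurableSpace (k j)] {μ : ∀ j, Measure (k j)}
    [∀ j, NontriviallyNormedField (l j)] [∀ j, ProperSpace (l j)]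
    {ι : ∀ j, GG (k j) (N j) →* E} {a a' : ∀ j, E →* PG (k j) (N j + 1)}
    {w : ∀ j, (k j)ˣ} {q : ∀ j, Γ → GG (l j) (N j)}
    (hk : ∀ j, H933.LocK (k j)) (hl : ∀ j, H933.LocK (l j)) (hA : ∀ j, Adm (ι j) (a j) (a' j))
    (hcomm : ∀ i j, i ≠ j → ∀ g h, Commute (ι i g) (ι j h))
    (hw : ∀ j, ‖(w j : k j)‖ < 1) (hz : ∀ j, Cz (w j) (ι j) (a j) (a' j))
    (hL : ∀ {κ : Type} [Fintype κ] {ξ : κ → HH (PT α α α)}
      (hT : Tri (V3 hα hα hα) (A3R hα hα hα) (B3R hα hα hα) ξ)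
      (_ : Hon (A3R hα hα hα) (B3R hα hα hα) ξ) i j (q' : Γ → GG (l j) (N i)), PH q' →
      H725.SN.LegBF (μ i) (w i) (ι i) (H34.Ind.pi (cdat ν hν) (V := V3 hα hα hα) hT.adjV)
        (H34.Ind.lam (cdat ν hν) (A3R hα hα hα)) (WT (cdat ν hν) (B3R hα hα hα)) (OmN hν ξ)
        (st (mT (cdat ν hν) hT)) q')
    (hq : ∀ j, PH (q j))
    (fin : ∀ C : ℝ, {γ : Γ | ∀ j, nm (q j γ) ≤ C}.Finite)
    (inj : ∀ γ, (∀ j, sp (l j) (N j + 1) (q j γ) = 1) → γ = 1)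
    (nis : ∀ j d, 1 ≤ d → d ≤ N j →
      NIS fun (γ : Γ) (x : Gr (l j) (Fin (N j + 1)) d) => q j γ • x)
    (nis' : ∀ j d, 1 ≤ d → d ≤ N j →
      NIS fun (γ : Γ) (x : Gr (l j) (Fin (N j + 1)) d) => ct (q j γ) • x) :
    ∃ (κ : Type) (_ : Fintype κ) (Ω : κ → Lp (HH (PT α α α)) 2 (cdat ν hν).μ)
      (m : Set Γ → (Lp (HH (PT α α α)) 2 (cdat ν hν).μ →L[ℂ]
        Lp (HH (PT α α α)) 2 (cdat ν hν).μ)) (τ : J → J) (q' : ∀ j, Γ → GG (l (τ j)) (N j))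
      (Ec F : ∀ j, YY (k j) (N j) → (CY (l (τ j)) (N j) →⋆ₐ[ℂ]
        (Lp (HH (PT α α α)) 2 (cdat ν hν).μ →L[ℂ] Lp (HH (PT α α α)) 2 (cdat ν hν).μ))),
      (∀ j, SX.LegNF (μ j) (w j) (ι j) (a j) (a' j)
        (H34.Ind.pi (cdat ν hν) (V := V3 hα hα hα) (adjV3 hα))
        (H34.Ind.lam (cdat ν hν) (A3R hα hα hα))
        (H34.Ind.Xset (cdat ν hν) (HH (PT α α α)) ∪
          Set.range (H34.Ind.lam (cdat ν hν) (B3R hα hα hα))) Ω m (q' j)
        (ZP (k := fun i => l (τ i)) q' j) (Ec j) (F j)) ∧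
      (∀ γ, (∀ j, sp (l (τ j)) (N j + 1) (q' j γ) = 1) → γ = 1) ∧
      (∀ C : ℝ, {γ : Γ | ∀ j, nm (q' j γ) ≤ C}.Finite) := by
  rcases isEmpty_or_nonempty J with hJ | hJ
  · exact ⟨Fin 0, inferInstance, fun _ => 0, fun _ => 0, id, q, fun j => isEmptyElim j,
      fun j => isEmptyElim j, fun j => isEmptyElim j, inj, fin⟩
  · obtain ⟨m, ξ, hT, hh⟩ := Vale.Agent.P092.H458.Hon.hon hα hα hΛ
    obtain ⟨n, n', ζ, h'⟩ := exists_tri' hα hα hα hΛ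
    haveI : NoncompactSpace E := H859.ExB.noncpt (hA hJ.some) (hw hJ.some)
    obtain ⟨Br, τ, hO⟩ := exists_outP hν hΓ hΛ hα hT hh hk hl hA hcomm hw hz hq fin
    obtain ⟨q', E₁, F₁, l1, i1, f1⟩ := exPX_of (μ := μ) hν hT hΓ h' hh
      (picF_HH hν hΓ hΛ hα hT) hA hw hz (hL hT hh) hq fin inj nis nis' hO
    exact ⟨Fin m, inferInstance, _, _, τ, q', E₁, F₁, l1, i1, f1⟩

end ex

end Vale.Agent.P092.H962.NT
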