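import Vale.Agent.P092.H962.NT.LegG
import Vale.Agent.P092.H305.PX.XLeg
import Vale.Agent.P092.H305.PX.Pair

/-!
P092 (helper962), Team N, products, all `t`: the leg of one factor of the source and one coordinate
of the target (families of vectors), one field and two fields; `H305/PX/{Leg,Legs,Pair}` for
families.
-/

set_option linter.all false

open scoped InnerProductSpace ENNReal LinearAlgebra.Projectivization
open Filter Topology ContinuousLinearMap MeasureTheory TopologicalSpace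

namespace Vale.Agent.P092.H962.NT

open Vale.Agent.P092.SR
open Vale.Agent.P092.H21 (mT BdT BfT msT WT Hon nc nc_ne fin_T)
open Vale.Agent.P092.H85 (cdat)
open Vale.Agent.P092.H859.CL (st pw)
open Vale.Agent.P092.H859.TgN
open Vale.Agent.P092.RC (GG PG YY y0 ct PicF)
open Vale.Agent.P092.SN (CY PH UD Adm bw un nm NW NWA NWS EFam)
open Vale.Agent.P092.SNT (LegNF ORBGF)
open Vale.Agent.P092.SNP (ZP)
open Vale.Agent.P092.H100.Gr (Gr)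
open Vale.Agent.P092.H76.Pur (NIS)
open Vale.Agent.P092.H368.SN (Cz pow_cocompact)
open Vale.Agent.P092.SD (MsF UC)
open Vale.Agent.P092.H962.NX (LegBX)
open Vale.Agent.P092.H35 (sp)
open Vale.Agent.P092.H337.NG (rho rho_of_nm ZZ_of_rho rho_of_ZZ siz_rho sizS_rho fin_rho G2)
open Vale.Agent.P092.H305.PX (Cmp exists_ge NW.mono nwa_mono ud_mono tg_rho ZP_mono ZP_le ZP_ge
  inj_cmp fin_cmp cmp_ct legXF_change msF_mono)

/-! ### Change of the family `Z` -/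

section leg

variable {k : Type} [NontriviallyNormedField k]
  [ProperSpace k] {N : ℕ} {E Γ K κ : Type} [Group E] [Fintype κ]
  [TopologicalSpace E] [Group Γ] [NormedAddCommGroup K] [InnerProductSpace ℂ K] [CompleteSpace K]
  {w : kˣ} {ι : GG k N →* E} {a a' : E →* PG k (N + 1)} {π : E →* (K →L[ℂ] K)}
  {lam : Γ →* (K →L[ℂ] K)} {W : Set (K →L[ℂ] K)} {m : Set Γ → (K →L[ℂ] K)}
  {q : Γ → GG k N} {Z Z' : ℝ → Set Γ}

theorem nws_changeF {Ω : K} (hM : ∀ {S T : Set Γ}, S ⊆ T → ∀ ξ, ‖m S ξ‖ ≤ ‖m T ξ‖)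
    (hz : ∀ R, ∃ R', Z R ⊆ Z' R') (hm : Monotone Z')
    (h : NWS w ι π Ω m q Z) : NWS w ι π Ω m q Z' := by
  intro g ε hε
  obtain ⟨R, hR⟩ := h g ε hε
  obtain ⟨R', h1, h2⟩ := exists_ge hz hm R
  refine ⟨R', fun t => (hM ?_ _).trans (hR t)⟩
  intro γ hγ hγ'
  exact hγ ⟨h2 hγ'.1, NW.mono h1 hγ'.2⟩

theorem efam_changeF (hM : ∀ {S T : Set Γ}, S ⊆ T → ∀ ξ, ‖m S ξ‖ ≤ ‖m T ξ‖)
    (hz : ∀ R, ∃ R', Z R ⊆ Z' R') (hm : Monotone Z')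
    {Ec : YY k N → (CY k N →⋆ₐ[ℂ] (K →L[ℂ] K))} (h : EFam w ι a π lam W m q Z Ec) :
    EFam w ι a π lam W m q Z' Ec where
  cm := h.cm
  cov := h.cov
  pcov := h.pcov
  dom g u A hA hu ζ ε hε := by
    obtain ⟨R, hR⟩ := h.dom g u A hA hu ζ ε hε
    obtain ⟨R', h1, h2⟩ := exists_ge hz hm R
    refine ⟨R', fun T hT => (hR T hT).mono fun t ht => ht.trans ?_⟩
    exact add_le_add_left (mul_le_mul_of_nonneg_left (hM (nwa_mono h1 h2) _)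
      (norm_nonneg _)) _
  agr := h.agr

/-- **Change of the family `Z`**, a family of vectors, one field. -/
theorem legNF_change [MeasurableSpace k] {μ : Measure k} {Ω : κ → K}
    {Ec F : YY k N → (CY k N →⋆ₐ[ℂ] (K →L[ℂ] K))}
    (h : LegNF μ w ι a a' π lam W Ω m q Z Ec F)
    (hm : Monotone Z') (hz : ∀ R, ∃ R', Z R ⊆ Z' R') (hz' : ∀ R, ∃ R', Z' R ⊆ Z R') :
    LegNF μ w ι a a' π lam W Ω m q Z' Ec F where
  adm := h.adm
  hw := h.hw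
  pic := h.pic
  ms := h.ms
  uc := h.uc
  ph := h.ph
  zm := hm
  ud R := by
    obtain ⟨R', h1⟩ := hz' R
    exact ud_mono (h.ud R') h1
  orb := h.orb
  orb' := h.orb'
  size := h.size
  size' := h.size'
  nws i := nws_changeF (msF_mono h.ms) hz hm (h.nws i)
  nws' i := nws_changeF (msF_mono h.ms) hz hm (h.nws' i)
  e := efam_changeF (msF_mono h.ms) hz hm h.e
  f := efam_changeF (msF_mono h.ms) hz hm h.f
  nis := h.nis

end leg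

section legs

variable {J : Type} [Fintype J] {k : J → Type} [∀ j, NontriviallyNormedField (k j)]
  [∀ j, ProperSpace (k j)] [∀ j, MeasurableSpace (k j)] {N : J → ℕ} {E Γ K κ : Type} [Group E]
  [Fintype κ]
  [TopologicalSpace E] [Group Γ] [NormedAddCommGroup K] [InnerProductSpace ℂ K] [CompleteSpace K]
  {μ : ∀ j, Measure (k j)} {w : ∀ j, (k j)ˣ} {ι : ∀ j, GG (k j) (N j) →* E}
  {a a' : ∀ j, E →* PG (k j) (N j + 1)} {π : E →* (K →L[ℂ] K)} {lam : Γ →* (K →L[ℂ] K)}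
  {W : Set (K →L[ℂ] K)} {Ω : κ → K} {m : Set Γ → (K →L[ℂ] K)} {τ : J → J}

/-- **One leg of the product**, output form, a family of vectors, one field. -/
theorem legNF_out {q : ∀ j, Γ → GG (k j) (N j)}
    (hf : ∀ C : ℝ, {γ | ∀ j, nm (q j γ) ≤ C}.Finite)
    (hi : ∀ γ, (∀ j, sp (k j) (N j + 1) (q j γ) = 1) → γ = 1)
    (h : ∃ τ : J → J, Function.Bijective τ ∧ ∀ i, ∃ (q' : Γ → GG (k i) (N i))
      (Ec F : YY (k i) (N i) → (CY (k i) (N i) →⋆ₐ[ℂ] (K →L[ℂ] K))), Cmp (q (τ i)) q' ∧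
        LegNF (μ i) (w i) (ι i) (a i) (a' i) π lam W Ω m q' (ZP q (τ i)) Ec F) :
    ∃ (q' : ∀ j, Γ → GG (k j) (N j))
      (E₁ F₁ : ∀ j, YY (k j) (N j) → (CY (k j) (N j) →⋆ₐ[ℂ] (K →L[ℂ] K))),
      (∀ j, LegNF (μ j) (w j) (ι j) (a j) (a' j) π lam W Ω m (q' j) (ZP q' j) (E₁ j) (F₁ j)) ∧
      (∀ γ, (∀ j, sp (k j) (N j + 1) (q' j γ) = 1) → γ = 1) ∧
      ∀ C : ℝ, {γ : Γ | ∀ j, nm (q' j γ) ≤ C}.Finite := by
  obtain ⟨τ, hτ, h1⟩ := h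
  choose q' E₁ F₁ hc hl using h1
  exact ⟨q', E₁, F₁, fun j => legNF_change (hl j) (ZP_mono q' j) (ZP_le hτ hc j) (ZP_ge hτ hc j),
    inj_cmp hτ hc hi, fin_cmp hτ hc hf⟩

end legs

/-! ### The positions -/

section pos

variable {G Γ K κ : Type} [Group G] [Group Γ] [Fintype κ]
  [NormedAddCommGroup K] [InnerProductSpace ℂ K] [CompleteSpace K]
  {π : G →* (K →L[ℂ] K)} {lam : Γ →* (K →L[ℂ] K)} {W : Set (K →L[ℂ] K)} {Ω : κ → K}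
  {m : Set Γ → (K →L[ℂ] K)}

theorem mf_or (h : MsF lam W Ω m) {S A B : Set Γ} (hS : S ⊆ A ∪ B) (ξ : K) :
    ‖m S ξ‖ ≤ ‖m A ξ‖ + ‖m B ξ‖ := by
  have h1 : A ∪ B = A ∪ (B \ A) := by rw [Set.union_diff_self]
  have h2 : m (A ∪ B) ξ = m A ξ + m (B \ A) ξ := by
    rw [h1]
    exact mf_union h (Set.disjoint_sdiff_right) ξ
  refine (h.mono hS ξ).trans ?_
  rw [h2]
  exact (norm_add_le _ _).trans (add_le_add_right (h.mono Set.diff_subset ξ) _)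

/-- the positions, from the tightness of the other coordinates and the positions in the
coordinate `j`; families -/
theorem posF_of {J : Type} [Fintype J] [DecidableEq J] {k : J → Type}
    [∀ j, NontriviallyNormedField (k j)] {N : J → ℕ} {q : ∀ j, Γ → GG (k j) (N j)}
    (hM : MsF lam W Ω m) (hN : ∀ j, 1 ≤ N j) (j : J) {b : G}
    (tight : ∀ (i : κ) (ε : ℝ), 0 < ε → ∃ r : ℝ, ∀ v ∈ Subgroup.zpowers b,
      ‖m {γ | ∃ j', j' ≠ j ∧ r < nm (q j' γ)} (π v (Ω i))‖ ≤ ε)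
    (hpos : ∀ (i : κ) (ε : ℝ), 0 < ε → ∃ r : ℝ, ∀ᶠ t : ℕ in atTop,
      ‖m {γ | r < G2 (q j γ) ∧ r < G2 (ct (q j γ))} (π (b ^ t) (Ω i))‖ ≤ ε) :
    PosF m π Ω (g2 (q j) (rho q j)) (g2 (fun γ => ct (q j γ)) (rho q j)) b := by
  intro i ε hε
  obtain ⟨r1, h1⟩ := hpos i (ε / 2) (half_pos hε)
  obtain ⟨r2, h2⟩ := tight i (ε / 2) (half_pos hε)
  obtain ⟨r3, h3⟩ := rho_of_nm (q := q) hN j r2
  refine ⟨max r1 r3, h1.mono fun t ht => ?_⟩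
  have h4 := h2 (b ^ t) (Subgroup.pow_mem _ (Subgroup.mem_zpowers b) t)
  refine (mf_or hM (A := {γ | r1 < G2 (q j γ) ∧ r1 < G2 (ct (q j γ))})
    (B := {γ | ∃ j', j' ≠ j ∧ r2 < nm (q j' γ)}) ?_ _).trans
    ((add_le_add ht h4).trans (le_of_eq (add_halves ε)))
  rintro γ ⟨h5, h6⟩
  by_cases hγ : ∀ j', j' ≠ j → nm (q j' γ) ≤ r2
  · left
    have h7 := h3 γ hγ
    have h8 : rho q j γ ≤ max r1 r3 := h7.trans (le_max_right _ _)
    have h5' : max r1 r3 < max (G2 (q j γ)) (rho q j γ) := h5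
    have h6' : max r1 r3 < max (G2 (ct (q j γ))) (rho q j γ) := h6
    refine ⟨?_, ?_⟩
    · rcases lt_max_iff.1 h5' with h9 | h9
      · exact (le_max_left _ _).trans_lt h9
      · exact absurd h9 (not_lt.2 h8)
    · rcases lt_max_iff.1 h6' with h9 | h9
      · exact (le_max_left _ _).trans_lt h9
      · exact absurd h9 (not_lt.2 h8)
  · right
    push Not at hγ
    obtain ⟨j', h7, h8⟩ := hγ
    exact ⟨j', h7, h8⟩

end pos

/-! ### The leg of a factor and a coordinate -/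

section pair

variable {E : Type} [Group E] [TopologicalSpace E] [IsTopologicalGroup E] [LocallyCompactSpace E]
  [SecondCountableTopology E] [T2Space E] [MeasurableSpace E] [BorelSpace E]
  {Γ : Subgroup E} [DiscreteTopology Γ] [Countable Γ] [MeasurableSpace (E ⧸ Γ)]
  [BorelSpace (E ⧸ Γ)] {ν : Measure (E ⧸ Γ)} [IsProbabilityMeasure ν]
  (hν : ∀ g : E, ν.map (fun x => g • x) = ν)
  {ℋ κ κ' : Type} [Fintype κ] [Fintype κ'] [NormedAddCommGroup ℋ]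
  [InnerProductSpace ℂ ℋ] [CompleteSpace ℋ] {V R₁ R₂ : Γ →* (ℋ →L[ℂ] ℋ)} {ξ : κ → ℋ}
  {ξ' : κ' → ℋ} (hT : Tri V R₁ R₂ ξ)
  (hΓ : ∀ g : Γ, g ≠ 1 → Set.Infinite {y : Γ | ∃ h, y = h * g * h⁻¹}) (hT' : Tri R₁ V R₂ ξ')
  (hh : Hon R₁ R₂ ξ)
  (hP : PicF (H34.Ind.pi (cdat ν hν) (V := V) hT.adjV) (H34.Ind.lam (cdat ν hν) R₁)
    (WT (cdat ν hν) R₂) (OmN hν ξ))
  {J : Type} [Fintype J] [DecidableEq J] {n : ℕ} {N : J → ℕ} {Br : ℝ → Set Γ}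

include hΓ hT' hh hP

/-- **The leg of a factor of the source and the coordinate `j` of the target**, one field. -/
theorem leg_pairF {k : Type} [NontriviallyNormedField k] [ProperSpace k]
    {ι : GG k n →* E} {a a' : E →* PG k (n + 1)} {w : kˣ} {q : ∀ j, Γ → GG k (N j)}
    [MeasurableSpace k] {μ : Measure k}
    (had : Adm ι a a') (hw : ‖(w : k)‖ < 1) (hz : Cz w ι a a')
    (hN : ∀ j, 1 ≤ N j) (hq : ∀ j, PH (q j))
    (fin : ∀ C : ℝ, {γ | ∀ j, nm (q j γ) ≤ C}.Finite) (j : J) (e : N j = n)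
    (hB₁ : ∀ r, ∃ r', H859.CL.BB (g1 (q j)) (g2 (q j) (rho q j)) r' ⊆ Br r)
    (hB₂ : ∀ r, ∃ r', H859.CL.BB (g1 fun γ => ct (q j γ)) (g2 (fun γ => ct (q j γ)) (rho q j)) r'
      ⊆ Br r)
    (nrm : ∀ ε : ℝ, 0 < ε → ∃ r, ∀ u ∈ Subgroup.zpowers (ι (bw w)),
      msT (cdat ν hν) hT u (Br r) ≤ ε)
    (hL : ∀ q' : Γ → GG k n, PH q' →
      H725.SN.LegBF μ w ι (H34.Ind.pi (cdat ν hν) (V := V) hT.adjV)
        (H34.Ind.lam (cdat ν hν) R₁) (WT (cdat ν hν) R₂) (OmN hν ξ)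
        (st (mT (cdat ν hν) hT)) q')
    (nis : ∀ d, 1 ≤ d → d ≤ N j → NIS fun (γ : Γ) (x : Gr k (Fin (N j + 1)) d) => q j γ • x)
    (nis' : ∀ d, 1 ≤ d → d ≤ N j →
      NIS fun (γ : Γ) (x : Gr k (Fin (N j + 1)) d) => ct (q j γ) • x)
    (tight : ∀ (i : κ) (ε : ℝ), 0 < ε → ∃ r : ℝ, ∀ v ∈ Subgroup.zpowers (ι (bw w)),
      ‖st (mT (cdat ν hν) hT) {γ | ∃ j', j' ≠ j ∧ r < nm (q j' γ)}
        (H34.Ind.pi (cdat ν hν) (V := V) hT.adjV v (OmN hν ξ i))‖ ≤ ε)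
    (hpos : ∀ (i : κ) (ε : ℝ), 0 < ε → ∃ r : ℝ, ∀ᶠ t : ℕ in atTop,
      ‖st (mT (cdat ν hν) hT) {γ | r < G2 (q j γ) ∧ r < G2 (ct (q j γ))}
        (H34.Ind.pi (cdat ν hν) (V := V) hT.adjV (ι (bw w) ^ t) (OmN hν ξ i))‖ ≤ ε)
    (hpos' : ∀ (i : κ) (ε : ℝ), 0 < ε → ∃ r : ℝ, ∀ᶠ t : ℕ in atTop,
      ‖st (mT (cdat ν hν) hT) {γ | r < G2 (q j γ) ∧ r < G2 (ct (q j γ))}
        (H34.Ind.pi (cdat ν hν) (V := V) hT.adjV ((ι (bw w))⁻¹ ^ t) (OmN hν ξ i))‖ ≤ ε) :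
    ∃ (q' : Γ → GG k n) (Ec F : YY k n → (CY k n →⋆ₐ[ℂ]
        (Lp ℋ 2 (cdat ν hν).μ →L[ℂ] Lp ℋ 2 (cdat ν hν).μ))),
      Cmp (q j) q' ∧
      LegNF μ w ι a a' (H34.Ind.pi (cdat ν hν) (V := V) hT.adjV)
        (H34.Ind.lam (cdat ν hν) R₁) (WT (cdat ν hν) R₂)
        (OmN hν ξ) (st (mT (cdat ν hν) hT)) q' (ZP q j) Ec F := by
  subst e
  have hM := msF_N hν hT hΓ hT' hh
  have pos := posF_of (q := q) hM hN j tight hpos
  have pos' := posF_of (q := q) (b := (ι (bw w))⁻¹) hM hN j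
    (by rw [Subgroup.zpowers_inv]; exact tight) hpos'
  obtain ⟨q', hq', Ec, F, hL'⟩ := legG_first (μ := μ) hν hT hΓ hT' hh hP had hw hz
    (tg_rho hN hq fin j) hB₁ hB₂ nrm hL nis nis' pos pos'
  refine ⟨q', Ec, F, ?_, legNF_change hL' (ZP_mono q j) (fun R => ?_) fun R => ?_⟩
  · rcases hq' with rfl | rfl
    · exact Cmp.refl _
    · exact cmp_ct _
  · obtain ⟨R', h⟩ := ZZ_of_rho (q := q) hN j R
    exact ⟨R', fun γ hγ => h γ hγ⟩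
  · obtain ⟨R', h⟩ := rho_of_ZZ (q := q) hN j R
    exact ⟨R', fun γ hγ => h γ hγ⟩

/-- **The leg of a factor of the source and the coordinate `j` of the target**, two fields. -/
theorem leg_pairX {kS : Type} [NontriviallyNormedField kS] [ProperSpace kS]
    {l : J → Type} [∀ j, NontriviallyNormedField (l j)] [∀ j, ProperSpace (l j)]
    {ι : GG kS n →* E} {a a' : E →* PG kS (n + 1)} {w : kSˣ} {q : ∀ j, Γ → GG (l j) (N j)}
    [MeasurableSpace kS] {μ : Measure kS}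
    (had : Adm ι a a') (hw : ‖(w : kS)‖ < 1) (hz : Cz w ι a a')
    (hN : ∀ j, 1 ≤ N j) (hq : ∀ j, PH (q j))
    (fin : ∀ C : ℝ, {γ | ∀ j, nm (q j γ) ≤ C}.Finite) (j : J) (e : N j = n)
    (hB₁ : ∀ r, ∃ r', H859.CL.BB (g1 (q j)) (g2 (q j) (rho q j)) r' ⊆ Br r)
    (hB₂ : ∀ r, ∃ r', H859.CL.BB (g1 fun γ => ct (q j γ)) (g2 (fun γ => ct (q j γ)) (rho q j)) r'
      ⊆ Br r)
    (nrm : ∀ ε : ℝ, 0 < ε → ∃ r, ∀ u ∈ Subgroup.zpowers (ι (bw w)),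
      msT (cdat ν hν) hT u (Br r) ≤ ε)
    (hL : ∀ q' : Γ → GG (l j) n, PH q' →
      H725.SN.LegBF μ w ι (H34.Ind.pi (cdat ν hν) (V := V) hT.adjV)
        (H34.Ind.lam (cdat ν hν) R₁) (WT (cdat ν hν) R₂) (OmN hν ξ)
        (st (mT (cdat ν hν) hT)) q')
    (nis : ∀ d, 1 ≤ d → d ≤ N j → NIS fun (γ : Γ) (x : Gr (l j) (Fin (N j + 1)) d) => q j γ • x)
    (nis' : ∀ d, 1 ≤ d → d ≤ N j →
      NIS fun (γ : Γ) (x : Gr (l j) (Fin (N j + 1)) d) => ct (q j γ) • x)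
    (tight : ∀ (i : κ) (ε : ℝ), 0 < ε → ∃ r : ℝ, ∀ v ∈ Subgroup.zpowers (ι (bw w)),
      ‖st (mT (cdat ν hν) hT) {γ | ∃ j', j' ≠ j ∧ r < nm (q j' γ)}
        (H34.Ind.pi (cdat ν hν) (V := V) hT.adjV v (OmN hν ξ i))‖ ≤ ε)
    (hpos : ∀ (i : κ) (ε : ℝ), 0 < ε → ∃ r : ℝ, ∀ᶠ t : ℕ in atTop,
      ‖st (mT (cdat ν hν) hT) {γ | r < G2 (q j γ) ∧ r < G2 (ct (q j γ))}
        (H34.Ind.pi (cdat ν hν) (V := V) hT.adjV (ι (bw w) ^ t) (OmN hν ξ i))‖ ≤ ε)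
    (hpos' : ∀ (i : κ) (ε : ℝ), 0 < ε → ∃ r : ℝ, ∀ᶠ t : ℕ in atTop,
      ‖st (mT (cdat ν hν) hT) {γ | r < G2 (q j γ) ∧ r < G2 (ct (q j γ))}
        (H34.Ind.pi (cdat ν hν) (V := V) hT.adjV ((ι (bw w))⁻¹ ^ t) (OmN hν ξ i))‖ ≤ ε) :
    ∃ (q' : Γ → GG (l j) n) (Ec F : YY kS n → (CY (l j) n →⋆ₐ[ℂ]
        (Lp ℋ 2 (cdat ν hν).μ →L[ℂ] Lp ℋ 2 (cdat ν hν).μ))),
      Cmp (q j) q' ∧
      SX.LegNF μ w ι a a' (H34.Ind.pi (cdat ν hν) (V := V) hT.adjV)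
        (H34.Ind.lam (cdat ν hν) R₁) (WT (cdat ν hν) R₂)
        (OmN hν ξ) (st (mT (cdat ν hν) hT)) q' (ZP q j) Ec F := by
  subst e
  have hM := msF_N hν hT hΓ hT' hh
  have pos := posF_of (q := q) hM hN j tight hpos
  have pos' := posF_of (q := q) (b := (ι (bw w))⁻¹) hM hN j
    (by rw [Subgroup.zpowers_inv]; exact tight) hpos'
  obtain ⟨q', hq', Ec, F, hL'⟩ := legG_firstX (μ := μ) hν hT hΓ hT' hh hP had hw hz
    (tg_rho hN hq fin j) hB₁ hB₂ nrm hL nis nis' pos pos'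
  refine ⟨q', Ec, F, ?_, legXF_change hL' (ZP_mono q j) (fun R => ?_) fun R => ?_⟩
  · rcases hq' with rfl | rfl
    · exact Cmp.refl _
    · exact cmp_ct _
  · obtain ⟨R', h⟩ := ZZ_of_rho (q := q) hN j R
    exact ⟨R', fun γ hγ => h γ hγ⟩
  · obtain ⟨R', h⟩ := rho_of_ZZ (q := q) hN j R
    exact ⟨R', fun γ hγ => h γ hγ⟩

end pair

end Vale.Agent.P092.H962.NT
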